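import Mathlib.Tactic

/-!
The control board: a 21 × 21 grid of cells, each with a direction that depends on the status of the
stored contents. Cells are grouped in four sectors (right, top, left, bottom).
-/

namespace Vale.Agent.P330.LS

/-- Directions on the board. -/
inductive Dir : Type
  | R | U | L | D
deriving DecidableEq

namespace Dir

/-- Quarter turn, counterclockwise. -/
def rot : Dir → Dir
  | R => U
  | U => L
  | L => D
  | D => R

end Dir

/-- Direction belonging to a level, in the frame of the right sector. -/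
def lev : ℕ → Dir
  | 1 => Dir.D
  | 2 => Dir.R
  | 3 => Dir.U
  | _ => Dir.L

/-- Sectors: right, top, left, bottom, centre. -/
inductive Sec : Type
  | right | top | left | bottom | centre
deriving DecidableEq

/-- The sector of a cell. -/
def sec (x y : ℕ) : Sec :=
  if 20 ≤ x + y ∧ y < x then Sec.right
  else if x ≤ y ∧ 20 < x + y then Sec.top
  else if x < y ∧ x + y ≤ 20 then Sec.left
  else if y ≤ x ∧ x + y < 20 then Sec.bottom
  else Sec.centre

/-- Direction of a cell for the contents `0ⁿ` (only used in the right sector). -/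
def dH (x y : ℕ) : Dir := lev (min 4 (max (x - 16) (12 - y)))

/-- Direction of a cell for valid contents. -/
def dV (x y : ℕ) : Dir :=
  match sec x y with
  | .right => lev (min 4 (x - 16))
  | .top => (lev (min 4 (y - 16))).rot
  | .left => (lev (min 4 (4 - x))).rot.rot
  | .bottom => (lev (min 4 (4 - y))).rot.rot.rot
  | .centre => Dir.R

/-- Direction of a cell for invalid contents. -/
def dN (x y : ℕ) : Dir :=
  match sec x y with
  | .right => Dir.L
  | .top => Dir.D
  | .left => Dir.R
  | .bottom => Dir.U
  | .centre => Dir.R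

/-- Statuses of the contents. -/
structure Stat where
  ha : Bool
  va : Bool
  v2 : Bool
  vb : Bool
  v4 : Bool

/-- The relevant validity status of a sector. -/
def Stat.val (s : Stat) : Sec → Bool
  | .right => s.va
  | .top => s.v2
  | .left => s.vb
  | .bottom => s.v4
  | .centre => false

/-- The direction of a cell. -/
def dir (s : Stat) (x y : ℕ) : Dir :=
  if sec x y = Sec.right ∧ s.ha = true then dH x y
  else if s.val (sec x y) = true then dV x y else dN x y

/-- Both directions lie in the closed quadrant given by the two signs. -/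
def inQuad (p q : Bool) (d : Dir) : Bool :=
  match d with
  | .R => p
  | .L => !p
  | .U => q
  | .D => !q

/-- The four directions of a `2 × 2` block lie in a quadrant. -/
def blockOk (s : Stat) (x y : ℕ) : Bool :=
  [(true, true), (true, false), (false, true), (false, false)].any fun pq =>
    inQuad pq.1 pq.2 (dir s x y) && inQuad pq.1 pq.2 (dir s (x + 1) y) &&
      inQuad pq.1 pq.2 (dir s x (y + 1)) && inQuad pq.1 pq.2 (dir s (x + 1) (y + 1))

/-- Compatibility of the statuses with the place of a block. -/
def compat (s : Stat) (x y : ℕ) : Bool :=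
  (!s.ha || s.va) &&
  (!(decide (13 ≤ x) && decide (13 ≤ y)) || (s.va == s.v2)) &&
  (!(decide (x + 1 ≤ 7) && decide (13 ≤ y)) || (s.v2 == s.vb)) &&
  (!(decide (x + 1 ≤ 7) && decide (y + 1 ≤ 7)) || (s.vb == s.v4)) &&
  (!(decide (13 ≤ x) && decide (y + 1 ≤ 7)) || (s.v4 == (s.va && !s.ha))) &&
  (!(decide (x ≤ 11) && decide (9 ≤ x + 1) && decide (y ≤ 11) && decide (9 ≤ y + 1)) || s.ha)

def allB (f : Bool → Bool) : Bool := f true && f false

def checkAll : Bool :=
  (List.range 20).all fun x => (List.range 20).all fun y =>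
    allB fun a => allB fun b => allB fun c => allB fun d => allB fun e =>
      !(compat ⟨a, b, c, d, e⟩ x y) || blockOk ⟨a, b, c, d, e⟩ x y

theorem checkAll_true : checkAll = true := by decide +kernel

theorem allB_iff {f : Bool → Bool} : allB f = true ↔ ∀ b, f b = true := by
  unfold allB
  rw [Bool.and_eq_true]
  constructor
  · rintro ⟨h1, h2⟩ b
    cases b
    · exact h2
    · exact h1
  · intro h
    exact ⟨h _, h _⟩

/-- In every block, all directions lie in a quadrant. -/
theorem exists_quad (s : Stat) {x y : ℕ} (hx : x < 20) (hy : y < 20)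
    (hc : compat s x y = true) : ∃ p q, ∀ x' y', (x' = x ∨ x' = x + 1) → (y' = y ∨ y' = y + 1) →
      inQuad p q (dir s x' y') = true := by
  have h := checkAll_true
  unfold checkAll at h
  rw [List.all_eq_true] at h
  have h1 := h x (List.mem_range.2 hx)
  rw [List.all_eq_true] at h1
  have h2 := h1 y (List.mem_range.2 hy)
  simp only [allB_iff] at h2
  have h3 := h2 s.ha s.va s.v2 s.vb s.v4
  have h4 : blockOk s x y = true := by
    have e : (⟨s.ha, s.va, s.v2, s.vb, s.v4⟩ : Stat) = s := rfl
    rw [e, hc] at h3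
    simpa using h3
  unfold blockOk at h4
  rw [List.any_eq_true] at h4
  obtain ⟨⟨p, q⟩, -, h5⟩ := h4
  simp only [Bool.and_eq_true] at h5
  refine ⟨p, q, ?_⟩
  rintro x' y' (rfl | rfl) (rfl | rfl)
  · exact h5.1.1.1
  · exact h5.1.2
  · exact h5.1.1.2
  · exact h5.2

def checkBd : Bool :=
  (List.range 21).all fun z =>
    allB fun a => allB fun b => allB fun c => allB fun d => allB fun e =>
      (dir ⟨a, b, c, d, e⟩ 0 z != Dir.L) && (dir ⟨a, b, c, d, e⟩ 20 z != Dir.R) &&
      (dir ⟨a, b, c, d, e⟩ z 0 != Dir.D) && (dir ⟨a, b, c, d, e⟩ z 20 != Dir.U)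

theorem checkBd_true : checkBd = true := by decide +kernel

/-- No direction points out of the board. -/
theorem bd (s : Stat) {z : ℕ} (hz : z ≤ 20) : dir s 0 z ≠ Dir.L ∧ dir s 20 z ≠ Dir.R ∧
    dir s z 0 ≠ Dir.D ∧ dir s z 20 ≠ Dir.U := by
  have h := checkBd_true
  unfold checkBd at h
  rw [List.all_eq_true] at h
  have h1 := h z (List.mem_range.2 (by omega))
  simp only [allB_iff] at h1
  have h3 := h1 s.ha s.va s.v2 s.vb s.v4
  simp only [Bool.and_eq_true, bne_iff_ne, ne_eq] at h3
  exact ⟨h3.1.1.1, h3.1.1.2, h3.1.2, h3.2⟩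

theorem dVN_right {x y : ℕ} (h : sec x y = Sec.right) (hx : x ≤ 16) : dV x y = dN x y := by
  unfold dV dN
  rw [h]
  simp [show x - 16 = 0 by omega, lev]

theorem dVN_top {x y : ℕ} (h : sec x y = Sec.top) (hx : y ≤ 16) : dV x y = dN x y := by
  unfold dV dN
  rw [h]
  simp [show y - 16 = 0 by omega, lev, Dir.rot]

theorem dVN_left {x y : ℕ} (h : sec x y = Sec.left) (hx : 4 ≤ x) : dV x y = dN x y := by
  unfold dV dN
  rw [h]
  simp [show 4 - x = 0 by omega, lev, Dir.rot]

theorem dVN_bottom {x y : ℕ} (h : sec x y = Sec.bottom) (hx : 4 ≤ y) : dV x y = dN x y := by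
  unfold dV dN
  rw [h]
  simp [show 4 - y = 0 by omega, lev, Dir.rot]

theorem dVN_centre {x y : ℕ} (h : sec x y = Sec.centre) : dV x y = dN x y := by
  unfold dV dN
  rw [h]

theorem sec_right {x y : ℕ} (h : sec x y = Sec.right) : 20 ≤ x + y ∧ y < x := by
  unfold sec at h
  split_ifs at h with h1
  exact h1

theorem sec_top {x y : ℕ} (h : sec x y = Sec.top) : x ≤ y ∧ 20 < x + y := by
  unfold sec at h
  split_ifs at h with h1 h2
  exact h2

theorem sec_left {x y : ℕ} (h : sec x y = Sec.left) : x < y ∧ x + y ≤ 20 := by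
  unfold sec at h
  split_ifs at h with h1 h2 h3
  exact h3

theorem sec_bottom {x y : ℕ} (h : sec x y = Sec.bottom) : y ≤ x ∧ x + y < 20 := by
  unfold sec at h
  split_ifs at h with h1 h2 h3 h4
  exact h4

end Vale.Agent.P330.LS
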