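import Vale.Agent.P330.LS.Defs
import Vale.Agent.P330.LS.Board

/-!
The pure circuit of an End-of-Line instance.
-/

namespace Vale.Agent.P330.LS

/-- Kleene truth values. -/
abbrev Tri := Option Bool

/-- Gates of pure circuits. -/
inductive PGate (ν : Type) : Type
  | const (b : Bool)
  | not (a : ν)
  | and (a b : ν)
  | or (a b : ν)
  | lo (a : ν)
  | hi (a : ν)

/-- The local condition at a node. -/
def PGate.Holds {ν : Type} (st : ν → Tri) (z : ν) : PGate ν → Prop
  | .const b => st z = some b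
  | .not a => ∀ v, st a = some v → st z = some (!v)
  | .and a b => (st a = some true → st b = some true → st z = some true) ∧
      (st a = some false → st z = some false) ∧ (st b = some false → st z = some false)
  | .or a b => (st a = some true → st z = some true) ∧ (st b = some true → st z = some true) ∧
      (st a = some false → st b = some false → st z = some false)
  | .lo a => ∀ v, st a = some v → st z = some v
  | .hi a => ∀ v, st a = some v → st z = some v

/-- Kinds of geometric nodes. -/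
inductive Tag : Type
  | cst | bit | tree | pre | npre | col | cell | inner | sel | term | dor | ndir
  | mvA | mvB | mvC | mv | thr | thrA
  | nu1 | nu2 | nw1 | nw2 | r1 | r2 | rst | nrst
  | ha | nha | nzb | va | nva | ab | xx | v2 | nv2 | vb | nvb | ee | v4 | nv4
deriving DecidableEq

instance : Finite Tag := by
  have h : Function.Injective (fun t : Tag => (⟨t.ctorIdx, by cases t <;> decide⟩ : Fin 60)) := by
    intro a b hab
    have h2 : a.ctorIdx = b.ctorIdx := congrArg Fin.val hab
    revert h2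
    cases a <;> cases b <;> first | (intro; rfl) | (intro h; exact absurd h (by decide))
  exact Finite.of_injective _ h

instance : Fintype Dir :=
  ⟨{Dir.R, Dir.U, Dir.L, Dir.D}, by intro x; cases x <;> simp⟩

/-- Geometric nodes (their number does not depend on the instance). -/
@[ext]
structure Geo : Type where
  tag : Tag
  e : Bool
  d : Dir
  p : ℕ
  q : ℕ
  r : ℕ

/-- Fields of the nodes belonging to a bit position. The Boolean parameter says to which of the two
content blocks the node belongs. -/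
inductive Fld : Type
  | c (q : Bool) | l (q : Bool) | h (q : Bool) | p1 (q : Bool) | p2 (q : Bool) | p3 (q : Bool)
  | m12 (q : Bool) | m23 (q : Bool) | m13 (q : Bool) | mm (q : Bool) | r (q : Bool) | nr (q : Bool)
  | o12 (q : Bool) | o (q : Bool) | a3 (q : Bool) | na (q : Bool) | t (q : Bool) | nt (q : Bool)
  | i1 (q : Bool) | i2 (q : Bool) | i3 (q : Bool) | i4 (q : Bool) | i5 (q : Bool)
  | k1 (q : Bool) | k2 (q : Bool) | k3 (q : Bool) | k4 (q : Bool) | k5 (q : Bool)
  | nx (q : Bool) | e1 (q : Bool) | e2 (q : Bool) | ex (q : Bool)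
  | f1 | f2 | fe
  | dg (q : Bool) | zr (q : Bool) | cx (q : Bool) | ce
deriving DecidableEq, Fintype

/-- All nodes. -/
inductive Nd : Type
  | geo (g : Geo)
  | fld (i : ℕ) (f : Fld)
  | cg (q : Bool) (k : ℕ)

/-- Number of samples. -/
def KK : ℕ := 1024

/-- Number of unary inputs of the counters. -/
def MM : ℕ := 20480

theorem KK_eq : KK = 1024 := rfl
theorem MM_eq : MM = 20480 := rfl

/-- Bound for the indices of geometric nodes. -/
def BB : ℕ := 30000

/-- The geometric nodes that are present. -/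
def Geo.Ok (g : Geo) : Prop := g.p ≤ BB ∧ g.q ≤ BB ∧ g.r ≤ BB

namespace Nd

/-- Geometric node without parameters. -/
def g0 (t : Tag) : Nd := .geo ⟨t, false, .R, 0, 0, 0⟩

def cst (b : Bool) : Nd := .geo ⟨.cst, b, .R, 0, 0, 0⟩
def bit (e : Bool) (t : ℕ) : Nd := .geo ⟨.bit, e, .R, t, 0, 0⟩
def tree (e : Bool) (t k : ℕ) : Nd := .geo ⟨.tree, e, .R, t, k, 0⟩
def pre (e : Bool) (j t : ℕ) : Nd := .geo ⟨.pre, e, .R, j, t, 0⟩
def npre (e : Bool) (j t : ℕ) : Nd := .geo ⟨.npre, e, .R, j, t, 0⟩
def col (e : Bool) (j t : ℕ) : Nd := .geo ⟨.col, e, .R, j, t, 0⟩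
def cell (j x y : ℕ) : Nd := .geo ⟨.cell, false, .R, j, x, y⟩
def inner (x y : ℕ) (d : Dir) : Nd := .geo ⟨.inner, false, d, x, y, 0⟩
def sel (x y : ℕ) (d : Dir) : Nd := .geo ⟨.sel, false, d, x, y, 0⟩
def term (j x y : ℕ) (d : Dir) : Nd := .geo ⟨.term, false, d, j, x, y⟩
def dor (j : ℕ) (d : Dir) (m : ℕ) : Nd := .geo ⟨.dor, false, d, j, m, 0⟩
def ndir (j : ℕ) (d : Dir) : Nd := .geo ⟨.ndir, false, d, j, 0, 0⟩
def mvA (e : Bool) (j t : ℕ) : Nd := .geo ⟨.mvA, e, .R, j, t, 0⟩
def mvB (e : Bool) (j t : ℕ) : Nd := .geo ⟨.mvB, e, .R, j, t, 0⟩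
def mvC (e : Bool) (j t : ℕ) : Nd := .geo ⟨.mvC, e, .R, j, t, 0⟩
def mv (e : Bool) (j t : ℕ) : Nd := .geo ⟨.mv, e, .R, j, t, 0⟩
def thr (e : Bool) (i k : ℕ) : Nd := .geo ⟨.thr, e, .R, i, k, 0⟩
def thrA (e : Bool) (i k : ℕ) : Nd := .geo ⟨.thrA, e, .R, i, k, 0⟩

def u1 : Nd := bit false 8
def u2 : Nd := bit false 13
def w1 : Nd := bit true 8
def w2 : Nd := bit true 13

end Nd

/-- Direction of decrease and increase of a coordinate. -/
def minusD (e : Bool) : Dir := if e then .D else .L
def plusD (e : Bool) : Dir := if e then .U else .R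

/-- The status node and its negation for a sector. -/
def vNode : Sec → Nd
  | .right => Nd.g0 .va
  | .top => Nd.g0 .v2
  | .left => Nd.g0 .vb
  | .bottom => Nd.g0 .v4
  | .centre => Nd.cst false

def nvNode : Sec → Nd
  | .right => Nd.g0 .nva
  | .top => Nd.g0 .nv2
  | .left => Nd.g0 .nvb
  | .bottom => Nd.g0 .nv4
  | .centre => Nd.cst true

open Nd in
/-- The gates of the geometric nodes. -/
def geoGate (g : Geo) : PGate Nd :=
  match g.tag with
  | .cst => .const g.e
  | .bit => if g.p = 0 then .const true else if 21 ≤ g.p then .const false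
      else .and (thr g.e MM (KK * g.p - 512)) (thr g.e MM (KK * g.p - 512))
  | .tree => if g.q ≤ 1 then .and (bit g.e g.p) (bit g.e g.p)
      else if g.q % 2 = 0 then .lo (tree g.e g.p (g.q / 2)) else .hi (tree g.e g.p (g.q / 2))
  | .pre => if g.q = 0 then .const true
      else if g.q ≤ 20 then .and (pre g.e g.p (g.q - 1)) (tree g.e g.q (KK + g.p))
      else .const false
  | .npre => .not (pre g.e g.p g.q)
  | .col => .and (pre g.e g.p g.q) (npre g.e g.p (g.q + 1))
  | .cell => .and (col false g.p g.q) (col true g.p g.r)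
  | .inner =>
      if dV g.p g.q = g.d then
        (if dN g.p g.q = g.d then .const true
          else .and (vNode (sec g.p g.q)) (vNode (sec g.p g.q)))
      else
        (if dN g.p g.q = g.d then .and (nvNode (sec g.p g.q)) (nvNode (sec g.p g.q))
          else .const false)
  | .sel =>
      if sec g.p g.q = Sec.right then
        (if dH g.p g.q = g.d then .or (g0 .ha) (inner g.p g.q g.d)
          else .and (g0 .nha) (inner g.p g.q g.d))
      else .and (inner g.p g.q g.d) (inner g.p g.q g.d)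
  | .term => .and (cell g.p g.q g.r) (sel g.q g.r g.d)
  | .dor => if g.q = 0 then .const false
      else .or (dor g.p g.d (g.q - 1)) (term g.p ((g.q - 1) / 21) ((g.q - 1) % 21) g.d)
  | .ndir => .not (dor g.p g.d 441)
  | .mvA => .and (pre g.e g.p g.q) (ndir g.p (minusD g.e))
  | .mvB => .and (pre g.e g.p (g.q - 1)) (dor g.p (plusD g.e) 441)
  | .mvC => .or (mvA g.e g.p g.q) (mvB g.e g.p g.q)
  | .mv => .or (pre g.e g.p (g.q + 1)) (mvC g.e g.p g.q)
  | .thr => if g.q = 0 then .const true else if g.p = 0 then .const false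
      else .or (thr g.e (g.p - 1) g.q) (thrA g.e (g.p - 1) (g.q - 1))
  | .thrA => .and (mv g.e (g.p / 20) (g.p % 20 + 1)) (thr g.e g.p g.q)
  | .nu1 => .not u1
  | .nu2 => .not u2
  | .nw1 => .not w1
  | .nw2 => .not w2
  | .r1 => .and u1 (g0 .nu2)
  | .r2 => .and w1 (g0 .nw2)
  | .rst => .and (g0 .r1) (g0 .r2)
  | .nrst => .not (g0 .rst)
  | .ha => .and (.fld 0 (.dg false)) (.fld 0 (.zr false))
  | .nha => .not (g0 .ha)
  | .nzb => .not (.fld 0 (.zr true))
  | .va => .and (.fld 0 (.dg false)) (.fld 0 (.dg false))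
  | .nva => .not (g0 .va)
  | .ab => .and (.fld 0 (.dg false)) (.fld 0 (.dg true))
  | .xx => .and (.fld 0 (.cx false)) (.fld 0 (.cx true))
  | .v2 => .and (g0 .ab) (g0 .xx)
  | .nv2 => .not (g0 .v2)
  | .vb => .and (.fld 0 (.dg true)) (g0 .nzb)
  | .nvb => .not (g0 .vb)
  | .ee => .and (.fld 0 .ce) (g0 .nzb)
  | .v4 => .and (g0 .ab) (g0 .ee)
  | .nv4 => .not (g0 .v4)

/-- The circuit that is evaluated on the other block: `S` for the block `true`, `P` for the block
`false`. -/
def EoL.circ (I : EoL) (q : Bool) : BCirc := if q then I.S else I.P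

/-- The node carrying the value of node `u` of the circuit `I.circ q`; the input is the readout of
the block `!q`. -/
def ref (I : EoL) (q : Bool) (u : ℕ) : Nd :=
  if u < I.n then .fld u (.r (!q)) else .cg q (u - I.n)

/-- Latch signal of a block and its negation: block `false` is latched if `u1`, block `true` is
latched if not `u2`. -/
def lt (q : Bool) : Nd := if q then Nd.g0 .nu2 else Nd.u1
def nlt (q : Bool) : Nd := if q then Nd.u2 else Nd.g0 .nu1

/-- Gates at the bit position `i`; `xt q` is the output number `i` of the circuit `I.circ q`. -/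
def fldGate (i : ℕ) (xt : Bool → Nd) : Fld → PGate Nd
  | .c q => .and (Nd.g0 .nrst) (.fld i (.k5 q))
  | .l q => .lo (.fld i (.c q))
  | .h q => .hi (.fld i (.c q))
  | .p1 q => .lo (.fld i (.l q))
  | .p2 q => .hi (.fld i (.l q))
  | .p3 q => .lo (.fld i (.h q))
  | .m12 q => .and (.fld i (.p1 q)) (.fld i (.p2 q))
  | .m23 q => .and (.fld i (.p2 q)) (.fld i (.p3 q))
  | .m13 q => .and (.fld i (.p1 q)) (.fld i (.p3 q))
  | .mm q => .or (.fld i (.m12 q)) (.fld i (.m23 q))
  | .r q => .or (.fld i (.mm q)) (.fld i (.m13 q))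
  | .nr q => .not (.fld i (.r q))
  | .o12 q => .or (.fld i (.p1 q)) (.fld i (.p2 q))
  | .o q => .or (.fld i (.o12 q)) (.fld i (.p3 q))
  | .a3 q => .and (.fld i (.m12 q)) (.fld i (.p3 q))
  | .na q => .not (.fld i (.a3 q))
  | .t q => .and (.fld i (.o q)) (.fld i (.na q))
  | .nt q => .not (.fld i (.t q))
  | .i1 q => .and Nd.w2 (xt q)
  | .i2 q => .and (Nd.g0 .nw2) (.fld i (.r (!q)))
  | .i3 q => .and (xt q) (.fld i (.r (!q)))
  | .i4 q => .or (.fld i (.i1 q)) (.fld i (.i2 q))
  | .i5 q => .or (.fld i (.i4 q)) (.fld i (.i3 q))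
  | .k1 q => .and (lt q) (.fld i (.r q))
  | .k2 q => .and (nlt q) (.fld i (.i5 q))
  | .k3 q => .and (.fld i (.r q)) (.fld i (.i5 q))
  | .k4 q => .or (.fld i (.k1 q)) (.fld i (.k2 q))
  | .k5 q => .or (.fld i (.k4 q)) (.fld i (.k3 q))
  | .nx q => .not (xt q)
  | .e1 q => .and (.fld i (.r q)) (xt q)
  | .e2 q => .and (.fld i (.nr q)) (.fld i (.nx q))
  | .ex q => .or (.fld i (.e1 q)) (.fld i (.e2 q))
  | .f1 => .and (.fld i (.r false)) (.fld i (.r true))
  | .f2 => .and (.fld i (.nr false)) (.fld i (.nr true))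
  | .fe => .or (.fld i .f1) (.fld i .f2)
  | .dg q => .and (.fld i (.nt q)) (.fld (i + 1) (.dg q))
  | .zr q => .and (.fld i (.nr q)) (.fld (i + 1) (.zr q))
  | .cx q => .and (.fld i (.ex q)) (.fld (i + 1) (.cx q))
  | .ce => .and (.fld i .fe) (.fld (i + 1) .ce)

/-- Boolean gates as gates of the pure circuit. -/
def bGate (I : EoL) (q : Bool) : BGate → PGate Nd
  | .and u v => .and (ref I q u) (ref I q v)
  | .or u v => .or (ref I q u) (ref I q v)
  | .not u => .not (ref I q u)

/-- The node of the `i`-th output of the circuit of a block. -/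
def xt (I : EoL) (i : ℕ) (q : Bool) : Nd := ref I q ((I.circ q).outs.getD i 0)

/-- All gates. -/
def gate (I : EoL) : Nd → PGate Nd
  | .geo g => geoGate g
  | .fld i f => if i < I.n then fldGate i (xt I i) f else .const true
  | .cg q k => match (I.circ q).gates[k]? with
      | some g => bGate I q g
      | none => .const true

/-- The nodes that are present. -/
def Dom (I : EoL) : Nd → Prop
  | .geo g => g.Ok
  | .fld i _ => i ≤ I.n
  | .cg q k => k < (I.circ q).gates.length

/-- A consistent assignment of Kleene values. -/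
structure Model (I : EoL) (st : Nd → Tri) : Prop where
  holds : ∀ z, Dom I z → (gate I z).Holds st z
  twin : ∀ z z' a, Dom I z → Dom I z' → gate I z = .lo a → gate I z' = .hi a →
    st z ≠ none ∨ st z' ≠ none

end Vale.Agent.P330.LS
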