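import Vale.Agent.P330.LS.Circ

/-!
Analysis of the content blocks of a model.
-/

namespace Vale.Agent.P330.LS

theorem read_aux {c l h p1 p2 p3 m12 m23 m13 mm r o12 o a3 na t nt : Tri}
    (hl : ∀ v, c = some v → l = some v) (hh : ∀ v, c = some v → h = some v)
    (h1 : ∀ v, l = some v → p1 = some v) (h2 : ∀ v, l = some v → p2 = some v)
    (h3 : ∀ v, h = some v → p3 = some v)
    (w1 : l ≠ none ∨ h ≠ none) (w2 : p1 ≠ none ∨ p2 ≠ none)
    (hm12 : (p1 = some true → p2 = some true → m12 = some true) ∧
      (p1 = some false → m12 = some false) ∧ (p2 = some false → m12 = some false))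
    (hm23 : (p2 = some true → p3 = some true → m23 = some true) ∧
      (p2 = some false → m23 = some false) ∧ (p3 = some false → m23 = some false))
    (hm13 : (p1 = some true → p3 = some true → m13 = some true) ∧
      (p1 = some false → m13 = some false) ∧ (p3 = some false → m13 = some false))
    (hmm : (m12 = some true → mm = some true) ∧ (m23 = some true → mm = some true) ∧
      (m12 = some false → m23 = some false → mm = some false))
    (hr : (mm = some true → r = some true) ∧ (m13 = some true → r = some true) ∧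
      (mm = some false → m13 = some false → r = some false))
    (ho12 : (p1 = some true → o12 = some true) ∧ (p2 = some true → o12 = some true) ∧
      (p1 = some false → p2 = some false → o12 = some false))
    (ho : (o12 = some true → o = some true) ∧ (p3 = some true → o = some true) ∧
      (o12 = some false → p3 = some false → o = some false))
    (ha3 : (m12 = some true → p3 = some true → a3 = some true) ∧
      (m12 = some false → a3 = some false) ∧ (p3 = some false → a3 = some false))
    (hna : ∀ v, a3 = some v → na = some (!v))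
    (ht : (o = some true → na = some true → t = some true) ∧
      (o = some false → t = some false) ∧ (na = some false → t = some false))
    (hnt : ∀ v, t = some v → nt = some (!v)) :
    (∀ v, c = some v → r = some v ∧ nt = some true) ∧ (r = none → nt = some false) := by
  constructor
  · intro v hv
    have a1 := hl v hv
    have a2 := hh v hv
    have b1 := h1 v a1
    have b2 := h2 v a1
    have b3 := h3 v a2
    cases v
    · have c1 := hm12.2.1 b1
      have c2 := hm23.2.1 b2
      have c3 := hm13.2.1 b1
      have d := hmm.2.2 c1 c2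
      refine ⟨hr.2.2 d c3, ?_⟩
      have e := ho.2.2 (ho12.2.2 b1 b2) b3
      exact hnt _ (ht.2.1 e)
    · have c1 := hm12.1 b1 b2
      refine ⟨hr.1 (hmm.1 c1), ?_⟩
      exact hnt _ (ht.2.2 (hna _ (ha3.1 c1 b3)))
  · intro hrn
    clear hl hh
    have key : ∀ a : Bool, (p1 = some a ∧ p2 = some a) ∨ (p2 = some a ∧ p3 = some a) ∨
        (p1 = some a ∧ p3 = some a) → False := by
      intro a ha
      cases a
      · have : m12 = some false ∧ m23 = some false ∧ m13 = some false := by
          rcases ha with ⟨u, v⟩ | ⟨u, v⟩ | ⟨u, v⟩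
          · exact ⟨hm12.2.1 u, hm23.2.1 v, hm13.2.1 u⟩
          · exact ⟨hm12.2.2 u, hm23.2.1 u, hm13.2.2 v⟩
          · exact ⟨hm12.2.1 u, hm23.2.2 v, hm13.2.1 u⟩
        have := hr.2.2 (hmm.2.2 this.1 this.2.1) this.2.2
        simp [hrn] at this
      · have : r = some true := by
          rcases ha with ⟨u, v⟩ | ⟨u, v⟩ | ⟨u, v⟩
          · exact hr.1 (hmm.1 (hm12.1 u v))
          · exact hr.1 (hmm.2.1 (hm23.1 u v))
          · exact hr.2.1 (hm13.1 u v)
        simp [hrn] at this
    have hl0 : l = none := by
      rcases e : l with _ | a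
      · rfl
      · exact (key a (Or.inl ⟨h1 a e, h2 a e⟩)).elim
    have hh0 : ∃ w, h = some w := Option.ne_none_iff_exists'.1 (w1.resolve_left (by simp [hl0]))
    obtain ⟨w, hw⟩ := hh0
    have hp3 := h3 w hw
    have h12 : (∃ a, p1 = some a ∧ a = !w) ∨ (∃ a, p2 = some a ∧ a = !w) := by
      rcases w2 with w2 | w2
      · obtain ⟨a, ha⟩ := Option.ne_none_iff_exists'.1 w2
        refine Or.inl ⟨a, ha, ?_⟩
        by_contra hne
        have : a = w := by revert hne; cases a <;> cases w <;> simp
        subst this
        exact key a (Or.inr (Or.inr ⟨ha, hp3⟩))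
      · obtain ⟨a, ha⟩ := Option.ne_none_iff_exists'.1 w2
        refine Or.inr ⟨a, ha, ?_⟩
        by_contra hne
        have : a = w := by revert hne; cases a <;> cases w <;> simp
        subst this
        exact key a (Or.inr (Or.inl ⟨ha, hp3⟩))
    have hoa : o = some true ∧ a3 = some false := by
      cases w
      · refine ⟨?_, ha3.2.2 hp3⟩
        rcases h12 with ⟨a, ha, rfl⟩ | ⟨a, ha, rfl⟩
        · exact ho.1 (ho12.1 ha)
        · exact ho.1 (ho12.2.1 ha)
      · refine ⟨ho.2.1 hp3, ?_⟩
        rcases h12 with ⟨a, ha, rfl⟩ | ⟨a, ha, rfl⟩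
        · exact ha3.2.1 (hm12.2.1 ha)
        · exact ha3.2.1 (hm12.2.2 ha)
    exact hnt _ (ht.1 hoa.1 (hna _ hoa.2))

/-! ### Chains -/

theorem chain_true {n : ℕ} {ch lit : ℕ → Tri} (hn : ch n = some true)
    (h : ∀ i < n, lit i = some true → ch (i + 1) = some true → ch i = some true)
    (hl : ∀ i < n, lit i = some true) : ch 0 = some true := by
  have key : ∀ k, k ≤ n → ch (n - k) = some true := by
    intro k
    induction k with
    | zero => intro _; simpa using hn
    | succ k ih =>
      intro hk
      have h1 := ih (by omega)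
      have e : n - k = (n - (k + 1)) + 1 := by omega
      rw [e] at h1
      exact h _ (by omega) (hl _ (by omega)) h1
  simpa using key n le_rfl

theorem chain_false {n : ℕ} {ch lit : ℕ → Tri}
    (h1 : ∀ i < n, lit i = some false → ch i = some false)
    (h2 : ∀ i < n, ch (i + 1) = some false → ch i = some false)
    (hl : ∃ i < n, lit i = some false) : ch 0 = some false := by
  obtain ⟨i, hi, hi'⟩ := hl
  have key : ∀ k, k ≤ i → ch (i - k) = some false := by
    intro k
    induction k with
    | zero => intro _; simpa using h1 i hi hi'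
    | succ k ih =>
      intro hk
      have e : i - k = (i - (k + 1)) + 1 := by omega
      have := ih (by omega)
      rw [e] at this
      exact h2 _ (by omega) this
  simpa using key i le_rfl

/-! ### Evaluation of circuits -/

theorem foldl_vals_getD (gs : List BGate) : ∀ (w : List Bool) (u : ℕ), u < w.length →
    (gs.foldl (fun w g => w ++ [g.eval w]) w).getD u false = w.getD u false := by
  induction gs with
  | nil => intro w u _; rfl
  | cons g gs ih =>
    intro w u hu
    rw [List.foldl_cons, ih _ _ (by simp; omega)]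
    simp [List.getD_eq_getElem?_getD, List.getElem?_append_left hu]

theorem foldl_vals_length (gs : List BGate) : ∀ (w : List Bool),
    (gs.foldl (fun w g => w ++ [g.eval w]) w).length = w.length + gs.length := by
  induction gs with
  | nil => intro w; rfl
  | cons g gs ih =>
    intro w
    rw [List.foldl_cons, ih]
    simp; omega

theorem BGate.eval_congr {g : BGate} {k : ℕ} (hg : g.Below k) {w w' : List Bool}
    (h : ∀ u < k, w.getD u false = w'.getD u false) : g.eval w = g.eval w' := by
  cases g with
  | and u v => simp only [BGate.eval]; rw [h u hg.1, h v hg.2]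
  | or u v => simp only [BGate.eval]; rw [h u hg.1, h v hg.2]
  | not u => simp only [BGate.eval]; rw [h u hg]

theorem foldl_vals_gate (gs : List BGate) : ∀ (w : List Bool) (k : ℕ) (hk : k < gs.length),
    (∀ k (h : k < gs.length), (gs[k]).Below (w.length + k)) →
    (gs.foldl (fun w g => w ++ [g.eval w]) w).getD (w.length + k) false =
      (gs[k]).eval (gs.foldl (fun w g => w ++ [g.eval w]) w) := by
  induction gs with
  | nil => intro w k hk; simp at hk
  | cons g gs ih =>
    intro w k hk hb
    rw [List.foldl_cons]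
    rcases k with _ | k
    · rw [foldl_vals_getD _ _ _ (by simp)]
      have h0 := hb 0 (by simp)
      simp only [List.getElem_cons_zero, Nat.add_zero] at h0
      simp only [List.getElem_cons_zero, Nat.add_zero]
      have e : (w ++ [g.eval w]).getD w.length false = g.eval w := by
        simp [List.getD_eq_getElem?_getD]
      rw [e]
      refine BGate.eval_congr h0 fun u hu => ?_
      rw [foldl_vals_getD _ _ _ (by simp; omega)]
      simp [List.getD_eq_getElem?_getD, List.getElem?_append_left hu]
    · have h1 := ih (w ++ [g.eval w]) k (by simpa using hk) (by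
        intro k hk
        have := hb (k + 1) (by simpa using hk)
        simp only [List.getElem_cons_succ] at this
        simp only [List.length_append, List.length_singleton]
        convert this using 1
        omega)
      simp only [List.getElem_cons_succ]
      rw [← h1]
      congr 1
      simp; omega

theorem BCirc.vals_length (C : BCirc) (v : List Bool) :
    (C.vals v).length = v.length + C.gates.length := foldl_vals_length _ _

theorem BCirc.vals_input (C : BCirc) (v : List Bool) {u : ℕ} (hu : u < v.length) :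
    (C.vals v).getD u false = v.getD u false := foldl_vals_getD _ _ _ hu

theorem BCirc.vals_gate {C : BCirc} {v : List Bool} {n : ℕ} (hC : C.WF n) (hv : v.length = n)
    {k : ℕ} (hk : k < C.gates.length) :
    (C.vals v).getD (n + k) false = (C.gates[k]).eval (C.vals v) := by
  subst hv
  exact foldl_vals_gate _ _ _ hk hC.1

theorem BCirc.eval_length {C : BCirc} {n : ℕ} (hC : C.WF n) (v : List Bool) :
    (C.eval v).length = n := by
  simp [BCirc.eval, hC.2.1]

theorem BCirc.eval_getD {C : BCirc} {n : ℕ} (hC : C.WF n) (v : List Bool) {i : ℕ} (hi : i < n) :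
    (C.eval v).getD i false = (C.vals v).getD (C.outs.getD i 0) false := by
  have h1 : i < C.outs.length := by rw [hC.2.1]; exact hi
  have h2 : i < (C.eval v).length := by rw [BCirc.eval_length hC]; exact hi
  rw [List.getD_eq_getElem _ _ h2, List.getD_eq_getElem _ _ h1]
  simp [BCirc.eval]

/-! ### Local conditions of a model -/

section Model

variable {I : EoL} {st : Nd → Tri}

theorem Model.fld (h : Model I st) {i : ℕ} (hi : i < I.n) (f : Fld) :
    (fldGate i (xt I i) f).Holds st (.fld i f) := by
  have := h.holds (.fld i f) (show i ≤ I.n from hi.le)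
  simpa only [gate, hi, if_true] using this

theorem Model.fldEnd (h : Model I st) (f : Fld) : st (.fld I.n f) = some true := by
  have := h.holds (.fld I.n f) (show I.n ≤ I.n from le_rfl)
  simpa only [gate, lt_irrefl, if_false, PGate.Holds] using this

theorem Model.geo (h : Model I st) (g : Geo) (hg : g.Ok) : (geoGate g).Holds st (.geo g) :=
  h.holds (.geo g) hg

theorem Model.tag (h : Model I st) (t : Tag) :
    (geoGate ⟨t, false, .R, 0, 0, 0⟩).Holds st (Nd.g0 t) :=
  h.geo _ ⟨Nat.zero_le _, Nat.zero_le _, Nat.zero_le _⟩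

theorem Model.twinFld (h : Model I st) {i : ℕ} (hi : i < I.n) {f f' : Fld} {a : Nd}
    (e : fldGate i (xt I i) f = .lo a) (e' : fldGate i (xt I i) f' = .hi a) :
    st (.fld i f) ≠ none ∨ st (.fld i f') ≠ none := by
  refine h.twin (.fld i f) (.fld i f') a (show i ≤ I.n from hi.le) (show i ≤ I.n from hi.le) ?_ ?_
  · simpa only [gate, hi, if_true] using e
  · simpa only [gate, hi, if_true] using e'

/-- The readout of a content bit. -/
theorem Model.read (h : Model I st) {i : ℕ} (hi : i < I.n) (q : Bool) :
    (∀ v, st (.fld i (.c q)) = some v →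
      st (.fld i (.r q)) = some v ∧ st (.fld i (.nt q)) = some true) ∧
    (st (.fld i (.r q)) = none → st (.fld i (.nt q)) = some false) :=
  read_aux (h.fld hi (.l q)) (h.fld hi (.h q)) (h.fld hi (.p1 q)) (h.fld hi (.p2 q))
    (h.fld hi (.p3 q)) (h.twinFld hi rfl rfl) (h.twinFld hi rfl rfl) (h.fld hi (.m12 q))
    (h.fld hi (.m23 q)) (h.fld hi (.m13 q)) (h.fld hi (.mm q)) (h.fld hi (.r q))
    (h.fld hi (.o12 q)) (h.fld hi (.o q)) (h.fld hi (.a3 q)) (h.fld hi (.na q)) (h.fld hi (.t q))
    (h.fld hi (.nt q))

theorem Model.nw2 (h : Model I st) {v : Bool} (hv : st Nd.w2 = some v) :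
    st (Nd.g0 .nw2) = some (!v) := h.tag .nw2 v hv

theorem Model.nu1 (h : Model I st) {v : Bool} (hv : st Nd.u1 = some v) :
    st (Nd.g0 .nu1) = some (!v) := h.tag .nu1 v hv

theorem Model.nu2 (h : Model I st) {v : Bool} (hv : st Nd.u2 = some v) :
    st (Nd.g0 .nu2) = some (!v) := h.tag .nu2 v hv

/-- The latch signals of a block are digital, with value `v`. -/
def Lat (st : Nd → Tri) (q v : Bool) : Prop := st (lt q) = some v ∧ st (nlt q) = some (!v)

theorem Model.lat_false (h : Model I st) {v : Bool} (hv : st Nd.u1 = some v) : Lat st false v :=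
  ⟨hv, h.nu1 hv⟩

theorem Model.lat_true (h : Model I st) {v : Bool} (hv : st Nd.u2 = some v) : Lat st true (!v) :=
  ⟨h.nu2 hv, by simpa [nlt] using hv⟩

/-- Inner multiplexer: the output of the circuit is selected. -/
theorem Model.inner_true (h : Model I st) {i : ℕ} (hi : i < I.n) {q v : Bool}
    (hw : st Nd.w2 = some true) (hx : st (xt I i q) = some v) :
    st (.fld i (.i5 q)) = some v := by
  have a1 := h.fld hi (.i1 q)
  have a2 := h.fld hi (.i2 q)
  have a3 := h.fld hi (.i3 q)
  have a4 := h.fld hi (.i4 q)
  have a5 := h.fld hi (.i5 q)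
  have hn : st (Nd.g0 .nw2) = some false := h.nw2 hw
  cases v
  · exact a5.2.2 (a4.2.2 (a1.2.2 hx) (a2.2.1 hn)) (a3.2.1 hx)
  · exact a5.1 (a4.1 (a1.1 hw hx))

/-- Inner multiplexer: the readout of the other block is selected. -/
theorem Model.inner_false (h : Model I st) {i : ℕ} (hi : i < I.n) {q v : Bool}
    (hw : st Nd.w2 = some false) (hr : st (.fld i (.r (!q))) = some v) :
    st (.fld i (.i5 q)) = some v := by
  have a1 := h.fld hi (.i1 q)
  have a2 := h.fld hi (.i2 q)
  have a3 := h.fld hi (.i3 q)
  have a4 := h.fld hi (.i4 q)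
  have a5 := h.fld hi (.i5 q)
  have hn : st (Nd.g0 .nw2) = some true := h.nw2 hw
  cases v
  · exact a5.2.2 (a4.2.2 (a1.2.1 hw) (a2.2.2 hr)) (a3.2.2 hr)
  · exact a5.1 (a4.2.1 (a2.1 hn hr))

theorem Model.mid_same (h : Model I st) {i : ℕ} (hi : i < I.n) {q v : Bool}
    (hr : st (.fld i (.r q)) = some v) (h5 : st (.fld i (.i5 q)) = some v) :
    st (.fld i (.k5 q)) = some v := by
  have a1 := h.fld hi (.k1 q)
  have a2 := h.fld hi (.k2 q)
  have a3 := h.fld hi (.k3 q)
  have a4 := h.fld hi (.k4 q)
  have a5 := h.fld hi (.k5 q)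
  cases v
  · exact a5.2.2 (a4.2.2 (a1.2.2 hr) (a2.2.2 h5)) (a3.2.1 hr)
  · exact a5.2.1 (a3.1 hr h5)

theorem Model.mid_latch (h : Model I st) {i : ℕ} (hi : i < I.n) {q v : Bool}
    (hl : Lat st q true) (hr : st (.fld i (.r q)) = some v) :
    st (.fld i (.k5 q)) = some v := by
  have a1 := h.fld hi (.k1 q)
  have a2 := h.fld hi (.k2 q)
  have a3 := h.fld hi (.k3 q)
  have a4 := h.fld hi (.k4 q)
  have a5 := h.fld hi (.k5 q)
  cases v
  · exact a5.2.2 (a4.2.2 (a1.2.2 hr) (a2.2.1 hl.2)) (a3.2.1 hr)
  · exact a5.1 (a4.1 (a1.1 hl.1 hr))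

theorem Model.mid_open (h : Model I st) {i : ℕ} (hi : i < I.n) {q v : Bool}
    (hl : Lat st q false) (h5 : st (.fld i (.i5 q)) = some v) :
    st (.fld i (.k5 q)) = some v := by
  have a1 := h.fld hi (.k1 q)
  have a2 := h.fld hi (.k2 q)
  have a3 := h.fld hi (.k3 q)
  have a4 := h.fld hi (.k4 q)
  have a5 := h.fld hi (.k5 q)
  cases v
  · exact a5.2.2 (a4.2.2 (a1.2.1 hl.1) (a2.2.2 h5)) (a3.2.2 h5)
  · exact a5.1 (a4.2.1 (a2.1 hl.2 h5))

/-- A content bit is digital with value `v`. -/
def Cd (st : Nd → Tri) (i : ℕ) (q v : Bool) : Prop :=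
  st (.fld i (.c q)) = some v ∧ st (.fld i (.r q)) = some v ∧ st (.fld i (.nt q)) = some true

theorem Model.cd (h : Model I st) {i : ℕ} (hi : i < I.n) {q v : Bool}
    (hc : st (.fld i (.c q)) = some v) : Cd st i q v :=
  ⟨hc, (h.read hi q).1 v hc⟩

theorem Model.cd_of_k5 (h : Model I st) {i : ℕ} (hi : i < I.n) {q v : Bool}
    (hn : st (Nd.g0 .nrst) = some true) (hk : st (.fld i (.k5 q)) = some v) : Cd st i q v := by
  have a := h.fld hi (.c q)
  cases v
  · exact h.cd hi (a.2.2 hk)
  · exact h.cd hi (a.1 hn hk)

/-- Latched bits are digital or flagged. -/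
theorem Model.latched (h : Model I st) {i : ℕ} (hi : i < I.n) {q : Bool}
    (hn : st (Nd.g0 .nrst) = some true) (hl : Lat st q true) :
    (∃ v, Cd st i q v) ∨ st (.fld i (.nt q)) = some false := by
  rcases e : st (.fld i (.r q)) with _ | v
  · exact Or.inr ((h.read hi q).2 e)
  · exact Or.inl ⟨v, h.cd_of_k5 hi hn (h.mid_latch hi hl e)⟩

/-- Bits in transition are correct, flagged, or surely different. -/
theorem Model.mixed (h : Model I st) {i : ℕ} (hi : i < I.n) {q p : Bool}
    (hn : st (Nd.g0 .nrst) = some true) (h5 : st (.fld i (.i5 q)) = some p) :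
    Cd st i q p ∨ st (.fld i (.nt q)) = some false ∨ st (.fld i (.r q)) = some (!p) := by
  rcases e : st (.fld i (.r q)) with _ | v
  · exact Or.inr (Or.inl ((h.read hi q).2 e))
  · by_cases hv : v = p
    · subst hv
      exact Or.inl (h.cd_of_k5 hi hn (h.mid_same hi e h5))
    · refine Or.inr (Or.inr ?_)
      revert hv; cases v <;> cases p <;> simp

/-- Forced bits. -/
theorem Model.forced (h : Model I st) {i : ℕ} (hi : i < I.n) {q p : Bool}
    (hn : st (Nd.g0 .nrst) = some true) (hl : Lat st q false)
    (h5 : st (.fld i (.i5 q)) = some p) : Cd st i q p :=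
  h.cd_of_k5 hi hn (h.mid_open hi hl h5)

/-- Latched bits during a reset. -/
theorem Model.zeroish (h : Model I st) {i : ℕ} (hi : i < I.n) {q : Bool} (hl : Lat st q true) :
    Cd st i q false ∨ st (.fld i (.nt q)) = some false ∨ st (.fld i (.r q)) = some true := by
  rcases e : st (.fld i (.r q)) with _ | v
  · exact Or.inr (Or.inl ((h.read hi q).2 e))
  · cases v
    · exact Or.inl (h.cd hi ((h.fld hi (.c q)).2.2 (h.mid_latch hi hl e)))
    · exact Or.inr (Or.inr rfl)

/-- Reset bits. -/
theorem Model.reset (h : Model I st) {i : ℕ} (hi : i < I.n) {q : Bool}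
    (hn : st (Nd.g0 .nrst) = some false) : Cd st i q false :=
  h.cd hi ((h.fld hi (.c q)).2.1 hn)

/-! ### Chains of a model -/

theorem Model.dg_true (h : Model I st) {q : Bool}
    (hl : ∀ i < I.n, st (.fld i (.nt q)) = some true) : st (.fld 0 (.dg q)) = some true :=
  chain_true (n := I.n) (ch := fun i => st (.fld i (.dg q)))
    (lit := fun i => st (.fld i (.nt q))) (h.fldEnd _) (fun _ hi => (h.fld hi (.dg q)).1) hl

theorem Model.dg_false (h : Model I st) {q : Bool}
    (hl : ∃ i < I.n, st (.fld i (.nt q)) = some false) : st (.fld 0 (.dg q)) = some false :=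
  chain_false (n := I.n) (ch := fun i => st (.fld i (.dg q)))
    (lit := fun i => st (.fld i (.nt q))) (fun _ hi => (h.fld hi (.dg q)).2.1)
    (fun _ hi => (h.fld hi (.dg q)).2.2) hl

theorem Model.zr_true (h : Model I st) {q : Bool}
    (hl : ∀ i < I.n, st (.fld i (.r q)) = some false) : st (.fld 0 (.zr q)) = some true :=
  chain_true (n := I.n) (ch := fun i => st (.fld i (.zr q)))
    (lit := fun i => st (.fld i (.nr q))) (h.fldEnd _) (fun _ hi => (h.fld hi (.zr q)).1)
    fun i hi => (h.fld hi (.nr q)) _ (hl i hi)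

theorem Model.zr_false (h : Model I st) {q : Bool}
    (hl : ∃ i < I.n, st (.fld i (.r q)) = some true) : st (.fld 0 (.zr q)) = some false := by
  obtain ⟨i, hi, hi'⟩ := hl
  exact chain_false (n := I.n) (ch := fun i => st (.fld i (.zr q)))
    (lit := fun i => st (.fld i (.nr q))) (fun _ hi => (h.fld hi (.zr q)).2.1)
    (fun _ hi => (h.fld hi (.zr q)).2.2) ⟨i, hi, (h.fld hi (.nr q)) _ hi'⟩

theorem Model.ex_true (h : Model I st) {i : ℕ} (hi : i < I.n) {q v : Bool}
    (hr : st (.fld i (.r q)) = some v) (hx : st (xt I i q) = some v) :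
    st (.fld i (.ex q)) = some true := by
  have a1 := h.fld hi (.e1 q)
  have a2 := h.fld hi (.e2 q)
  have a3 := h.fld hi (.ex q)
  have hnr := h.fld hi (.nr q) _ hr
  have hnx := h.fld hi (.nx q) _ hx
  cases v
  · exact a3.2.1 (a2.1 hnr hnx)
  · exact a3.1 (a1.1 hr hx)

theorem Model.ex_false (h : Model I st) {i : ℕ} (hi : i < I.n) {q v : Bool}
    (hr : st (.fld i (.r q)) = some (!v)) (hx : st (xt I i q) = some v) :
    st (.fld i (.ex q)) = some false := by
  have a1 := h.fld hi (.e1 q)
  have a2 := h.fld hi (.e2 q)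
  have a3 := h.fld hi (.ex q)
  have hnr := h.fld hi (.nr q) _ hr
  have hnx := h.fld hi (.nx q) _ hx
  cases v
  · exact a3.2.2 (a1.2.2 hx) (a2.2.1 hnr)
  · exact a3.2.2 (a1.2.1 hr) (a2.2.2 hnx)

theorem Model.cx_true (h : Model I st) {q : Bool}
    (hl : ∀ i < I.n, st (.fld i (.ex q)) = some true) : st (.fld 0 (.cx q)) = some true :=
  chain_true (n := I.n) (ch := fun i => st (.fld i (.cx q)))
    (lit := fun i => st (.fld i (.ex q))) (h.fldEnd _) (fun _ hi => (h.fld hi (.cx q)).1) hl

theorem Model.cx_false (h : Model I st) {q : Bool}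
    (hl : ∃ i < I.n, st (.fld i (.ex q)) = some false) : st (.fld 0 (.cx q)) = some false :=
  chain_false (n := I.n) (ch := fun i => st (.fld i (.cx q)))
    (lit := fun i => st (.fld i (.ex q))) (fun _ hi => (h.fld hi (.cx q)).2.1)
    (fun _ hi => (h.fld hi (.cx q)).2.2) hl

theorem Model.fe_true (h : Model I st) {i : ℕ} (hi : i < I.n) {q v : Bool}
    (hr : st (.fld i (.r q)) = some v) (hx : st (.fld i (.r (!q))) = some v) :
    st (.fld i .fe) = some true := by
  have a1 := h.fld hi .f1
  have a2 := h.fld hi .f2
  have a3 := h.fld hi .fe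
  have hnr := h.fld hi (.nr q) _ hr
  have hnx := h.fld hi (.nr (!q)) _ hx
  cases q <;> cases v
  · exact a3.2.1 (a2.1 hnr hnx)
  · exact a3.1 (a1.1 hr hx)
  · exact a3.2.1 (a2.1 hnx hnr)
  · exact a3.1 (a1.1 hx hr)

theorem Model.fe_false (h : Model I st) {i : ℕ} (hi : i < I.n) {q v : Bool}
    (hr : st (.fld i (.r q)) = some v) (hx : st (.fld i (.r (!q))) = some (!v)) :
    st (.fld i .fe) = some false := by
  have a1 := h.fld hi .f1
  have a2 := h.fld hi .f2
  have a3 := h.fld hi .fe
  have hnr := h.fld hi (.nr q) _ hr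
  have hnx := h.fld hi (.nr (!q)) _ hx
  cases q <;> cases v
  · exact a3.2.2 (a1.2.1 hr) (a2.2.2 hnx)
  · exact a3.2.2 (a1.2.2 hx) (a2.2.1 hnr)
  · exact a3.2.2 (a1.2.2 hr) (a2.2.1 hnx)
  · exact a3.2.2 (a1.2.1 hx) (a2.2.2 hnr)

theorem Model.ce_true (h : Model I st)
    (hl : ∀ i < I.n, st (.fld i .fe) = some true) : st (.fld 0 .ce) = some true :=
  chain_true (n := I.n) (ch := fun i => st (.fld i .ce))
    (lit := fun i => st (.fld i .fe)) (h.fldEnd _) (fun _ hi => (h.fld hi .ce).1) hl

theorem Model.ce_false (h : Model I st)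
    (hl : ∃ i < I.n, st (.fld i .fe) = some false) : st (.fld 0 .ce) = some false :=
  chain_false (n := I.n) (ch := fun i => st (.fld i .ce))
    (lit := fun i => st (.fld i .fe)) (fun _ hi => (h.fld hi .ce).2.1)
    (fun _ hi => (h.fld hi .ce).2.2) hl

/-! ### Evaluation inside a model -/

theorem Model.ref_val (h : Model I st) {q : Bool} (hC : (I.circ q).WF I.n) {v : List Bool}
    (hv : v.length = I.n) (hr : ∀ i < I.n, st (.fld i (.r (!q))) = some (v.getD i false)) :
    ∀ u, u < I.n + (I.circ q).gates.length →
      st (ref I q u) = some (((I.circ q).vals v).getD u false) := by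
  intro u
  induction u using Nat.strong_induction_on with
  | _ u ih =>
    intro hu
    by_cases hun : u < I.n
    · rw [ref, if_pos hun, hr u hun, BCirc.vals_input _ _ (by rw [hv]; exact hun)]
    · obtain ⟨k, rfl⟩ : ∃ k, u = I.n + k := ⟨u - I.n, by omega⟩
      have hk : k < (I.circ q).gates.length := by omega
      have e1 : ref I q (I.n + k) = .cg q k := by
        rw [ref, if_neg (by omega)]; congr 1; omega
      rw [e1, BCirc.vals_gate hC hv hk]
      have hh := h.holds (.cg q k) hk
      have hb := hC.1 k hk
      simp only [gate, List.getElem?_eq_getElem hk] at hh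
      generalize (I.circ q).gates[k] = g at hh hb ⊢
      cases g with
      | and a b =>
        have ha' := ih a hb.1 (by have := hb.1; omega)
        have hb' := ih b hb.2 (by have := hb.2; omega)
        simp only [bGate, PGate.Holds] at hh
        simp only [BGate.eval]
        revert ha' hb'
        rcases ((I.circ q).vals v).getD a false with _ | _ <;>
          rcases ((I.circ q).vals v).getD b false with _ | _ <;> intro ha' hb'
        · exact hh.2.1 ha'
        · exact hh.2.1 ha'
        · exact hh.2.2 hb'
        · exact hh.1 ha' hb'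
      | or a b =>
        have ha' := ih a hb.1 (by have := hb.1; omega)
        have hb' := ih b hb.2 (by have := hb.2; omega)
        simp only [bGate, PGate.Holds] at hh
        simp only [BGate.eval]
        revert ha' hb'
        rcases ((I.circ q).vals v).getD a false with _ | _ <;>
          rcases ((I.circ q).vals v).getD b false with _ | _ <;> intro ha' hb'
        · exact hh.2.2 ha' hb'
        · exact hh.2.1 hb'
        · exact hh.1 ha'
        · exact hh.1 ha'
      | not a =>
        have ha' := ih a hb (by have : a < I.n + k := hb; omega)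
        simp only [bGate, PGate.Holds] at hh
        simp only [BGate.eval]
        exact hh _ ha'

theorem Model.xt_val (h : Model I st) {q : Bool} (hC : (I.circ q).WF I.n) {v : List Bool}
    (hv : v.length = I.n) (hr : ∀ i < I.n, st (.fld i (.r (!q))) = some (v.getD i false))
    {i : ℕ} (hi : i < I.n) :
    st (xt I i q) = some (((I.circ q).eval v).getD i false) := by
  have h1 : i < (I.circ q).outs.length := by rw [hC.2.1]; exact hi
  rw [xt, h.ref_val hC hv hr _ (by
    rw [List.getD_eq_getElem _ _ h1]; exact hC.2.2 _ (List.getElem_mem h1)),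
    BCirc.eval_getD hC v hi]

end Model

end Vale.Agent.P330.LS
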