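import Vale.Agent.P330.LS.Geom

/-!
Counting: there is no model without a stored solution.
-/

namespace Vale.Agent.P330.LS

variable {I : EoL} {st : Nd → Tri}

theorem sum_rows (f : ℕ → ℕ → ℕ) (J : ℕ) :
    ∑ k ∈ Finset.range (20 * J), f (k / 20) (k % 20) =
      ∑ j ∈ Finset.range J, ∑ s ∈ Finset.range 20, f j s := by
  induction J with
  | zero => simp
  | succ J ih =>
    have h1 : ∑ x ∈ Finset.range 20, f ((20 * J + x) / 20) ((20 * J + x) % 20) =
        ∑ s ∈ Finset.range 20, f J s := by
      refine Finset.sum_congr rfl fun s hs => ?_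
      have := Finset.mem_range.1 hs
      rw [show (20 * J + s) / 20 = J by omega, show (20 * J + s) % 20 = s by omega]
    rw [show 20 * (J + 1) = 20 * J + 20 by ring, Finset.sum_range_add, ih, h1,
      Finset.sum_range_succ (n := J)]

/-- Row counts. -/
def rowLo (st : Nd → Tri) (e : Bool) (j : ℕ) : ℕ :=
  ∑ s ∈ Finset.range 20, if st (Nd.mv e j (s + 1)) = some true then 1 else 0

def rowUp (st : Nd → Tri) (e : Bool) (j : ℕ) : ℕ :=
  ∑ s ∈ Finset.range 20, if st (Nd.mv e j (s + 1)) ≠ some false then 1 else 0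

theorem lo_eq (st : Nd → Tri) (e : Bool) :
    lo st e = ∑ j ∈ Finset.range 1024, rowLo st e j :=
  sum_rows (fun j s => if st (Nd.mv e j (s + 1)) = some true then 1 else 0) 1024

theorem up_eq (st : Nd → Tri) (e : Bool) :
    up st e = ∑ j ∈ Finset.range 1024, rowUp st e j :=
  sum_rows (fun j s => if st (Nd.mv e j (s + 1)) ≠ some false then 1 else 0) 1024

theorem rowUp_le (st : Nd → Tri) (e : Bool) (j : ℕ) : rowUp st e j ≤ 20 := by
  refine (Finset.sum_le_card_nsmul _ _ 1 fun k _ => ?_).trans (by simp)
  split_ifs <;> omega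

theorem sum_indicator_le (m : ℕ) (a : ℕ) :
    ∑ s ∈ Finset.range m, (if s = a then 1 else 0) ≤ 1 := by
  rw [Finset.sum_ite_eq']
  split_ifs <;> omega

theorem Model.rowUp_le_rowLo (h : Model I st) {e : Bool} {j x : ℕ} (hj : j < 1024)
    (hp : Pos st e j x) : rowUp st e j ≤ rowLo st e j + 2 := by
  have h1 : rowUp st e j ≤ ∑ s ∈ Finset.range 20,
      ((if st (Nd.mv e j (s + 1)) = some true then 1 else 0) +
        ((if s = x then 1 else 0) + (if s = x - 1 then 1 else 0))) := by
    refine Finset.sum_le_sum fun s hs => ?_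
    have hs20 := Finset.mem_range.1 hs
    by_cases c1 : s + 2 ≤ x
    · have := h.mv_low (t := s + 1) hj hp (by omega)
      simp [this]
    · by_cases c2 : x + 2 ≤ s + 1
      · have := h.mv_high (t := s + 1) hj hp (by omega) (by omega)
        simp [this]
      · have : s = x ∨ s = x - 1 := by omega
        split_ifs <;> omega
  rw [Finset.sum_add_distrib, Finset.sum_add_distrib] at h1
  have h2 := sum_indicator_le 20 x
  have h3 := sum_indicator_le 20 (x - 1)
  unfold rowLo
  omega

theorem sum_count (n : ℕ) (hn : n ≤ 20) :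
    ∑ s ∈ Finset.range 20, (if s + 1 ≤ n then 1 else 0) = n := by
  rw [← Finset.sum_filter, Finset.sum_const, smul_eq_mul, mul_one]
  have : (Finset.range 20).filter (fun s => s + 1 ≤ n) = Finset.range n := by
    ext s; simp; omega
  rw [this, Finset.card_range]

theorem Model.row_val (h : Model I st) {e : Bool} {j x : ℕ} {d : Dir} (hj : j < 1024)
    (hp : Pos st e j x) (hd : ∀ d', st (Nd.dor j d' 441) = some (decide (d = d')))
    (hn : newPos e x d ≤ 20) : rowLo st e j = newPos e x d ∧ rowUp st e j = newPos e x d := by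
  have key : ∀ s ∈ Finset.range 20, st (Nd.mv e j (s + 1)) =
      some (decide (s + 1 ≤ newPos e x d)) := fun s hs =>
    h.mv_val hj hp hd (by omega) (by have := Finset.mem_range.1 hs; omega)
  constructor
  · rw [rowLo, ← sum_count _ hn]
    refine Finset.sum_congr rfl fun s hs => ?_
    rw [key s hs]
    simp
  · rw [rowUp, ← sum_count _ hn]
    refine Finset.sum_congr rfl fun s hs => ?_
    rw [key s hs]
    by_cases c : s + 1 ≤ newPos e x d <;> simp [c]

/-! ### Bad samples -/

open Classical in
/-- Ambiguous bits. -/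
noncomputable def amb (st : Nd → Tri) (e : Bool) : Finset ℕ :=
  (Finset.Icc 1 20).filter fun t => st (Nd.bit e t) = none

open Classical in
theorem Model.bad_le (h : Model I st) (e : Bool) :
    ((Finset.range 1024).filter fun j => ¬ GoodAx st e j).card ≤ (amb st e).card := by
  choose! j0 hj0 using fun (t : ℕ) (ht : t ≤ 20) => h.leaf_amb e ht
  refine (Finset.card_le_card (t := (amb st e).image j0) fun j hj => ?_).trans
    Finset.card_image_le
  rw [Finset.mem_filter, Finset.mem_range] at hj
  obtain ⟨hj1, hj2⟩ := hj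
  unfold GoodAx at hj2
  push Not at hj2
  obtain ⟨t, ht1, ht2, ht3⟩ := hj2
  rw [Finset.mem_image]
  refine ⟨t, ?_, ?_⟩
  · unfold amb
    rw [Finset.mem_filter, Finset.mem_Icc]
    refine ⟨⟨ht1, ht2⟩, ?_⟩
    rcases e1 : st (Nd.bit e t) with _ | v
    · rfl
    · rw [h.leaf_dig e ht2 hj1 e1] at ht3
      simp at ht3
  · by_contra hne
    exact hj0 t ht2 j hj1 (fun e => hne e.symm) ht3

/-- The bits of an axis are `1 … 1`, then at most `w` unknown ones, then `0 … 0`. -/
structure Win (st : Nd → Tri) (e : Bool) (p w : ℕ) : Prop where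
  le : p ≤ 20
  tr : ∀ t, 1 ≤ t → t ≤ p → st (Nd.bit e t) = some true
  fa : ∀ t, p + w + 1 ≤ t → t ≤ 20 → st (Nd.bit e t) = some false

theorem Win.amb_le {e : Bool} {p w : ℕ} (hw : Win st e p w) : (amb st e).card ≤ w := by
  classical
  have : amb st e ⊆ Finset.Icc (p + 1) (p + w) := by
    intro t ht
    unfold amb at ht
    rw [Finset.mem_filter, Finset.mem_Icc] at ht
    obtain ⟨⟨h1, h2⟩, h3⟩ := ht
    rw [Finset.mem_Icc]
    constructor
    · by_contra hc
      rw [hw.tr t h1 (by omega)] at h3
      simp at h3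
    · by_contra hc
      rw [hw.fa t (by omega) h2] at h3
      simp at h3
  exact (Finset.card_le_card this).trans (by simp)

/-- The position of the counter. -/
def pp (st : Nd → Tri) (e : Bool) : ℕ := min 20 ((lo st e + 512) / 1024)

theorem Model.win_tr (h : Model I st) (e : Bool) {t : ℕ} (h1 : 1 ≤ t) (h2 : t ≤ pp st e) :
    st (Nd.bit e t) = some true := by
  unfold pp at h2
  refine h.bit_true e h1 (by omega) ?_
  have : t ≤ (lo st e + 512) / 1024 := by omega
  omega

open Classical in
theorem Model.win3 (h : Model I st) (e : Bool) : Win st e (pp st e) 3 := by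
  refine ⟨by unfold pp; omega, fun t h1 h2 => h.win_tr e h1 h2, fun t h1 h2 => ?_⟩
  have hb := h.bad_le e
  have ha : (amb st e).card ≤ 20 :=
    (Finset.card_le_card (Finset.filter_subset _ _)).trans (by simp)
  have hup : up st e ≤ lo st e + 2 * 1024 + 20 * 20 := by
    rw [up_eq, lo_eq]
    have h3 : ∀ j ∈ Finset.range 1024, rowUp st e j ≤
        rowLo st e j + 2 + (if ¬ GoodAx st e j then 20 else 0) := by
      intro j hj
      rw [Finset.mem_range] at hj
      by_cases hg : GoodAx st e j
      · obtain ⟨x, hx⟩ := h.pos hj hg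
        have := h.rowUp_le_rowLo hj hx
        simp [hg, this]
      · have := rowUp_le st e j
        simp only [hg, not_false_eq_true, if_true]
        omega
    refine (Finset.sum_le_sum h3).trans ?_
    rw [Finset.sum_add_distrib, Finset.sum_add_distrib, ← Finset.sum_filter]
    simp only [Finset.sum_const, smul_eq_mul, Finset.card_range]
    have : ((Finset.range 1024).filter fun j => ¬ GoodAx st e j).card * 20 ≤ 20 * 20 :=
      Nat.mul_le_mul_right 20 (hb.trans ha)
    omega
  refine h.bit_false e (by omega) h2 ?_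
  unfold pp at h1
  omega

/-! ### The directions of the samples are digital -/

open Classical in
/-- The statuses of a model. -/
noncomputable def stat (st : Nd → Tri) : Stat where
  ha := decide (st (Nd.g0 .ha) = some true ∧ st (Nd.g0 .va) = some true)
  va := decide (st (Nd.g0 .va) = some true)
  v2 := decide (st (Nd.g0 .v2) = some true)
  vb := decide (st (Nd.g0 .vb) = some true)
  v4 := decide (st (Nd.g0 .v4) = some true)

theorem stat_va {b : Bool} (h : st (Nd.g0 .va) = some b) : (stat st).va = b := by
  simp only [stat, h, Option.some.injEq]; cases b <;> simp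

theorem stat_v2 {b : Bool} (h : st (Nd.g0 .v2) = some b) : (stat st).v2 = b := by
  simp only [stat, h, Option.some.injEq]; cases b <;> simp

theorem stat_vb {b : Bool} (h : st (Nd.g0 .vb) = some b) : (stat st).vb = b := by
  simp only [stat, h, Option.some.injEq]; cases b <;> simp

theorem stat_v4 {b : Bool} (h : st (Nd.g0 .v4) = some b) : (stat st).v4 = b := by
  simp only [stat, h, Option.some.injEq]; cases b <;> simp

theorem stat_ha_false (h : st (Nd.g0 .ha) = some false) : (stat st).ha = false := by
  simp [stat, h]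

theorem stat_ha_true (h : st (Nd.g0 .ha) = some true) (h' : st (Nd.g0 .va) = some true) :
    (stat st).ha = true := by
  simp [stat, h, h']

theorem Model.inner_val (h : Model I st) {x y : ℕ} (hx : x ≤ 20) (hy : y ≤ 20) {b : Bool}
    (hb : dV x y = dN x y ∨
      (st (vNode (sec x y)) = some b ∧ st (nvNode (sec x y)) = some (!b))) (d : Dir) :
    st (Nd.inner x y d) = some (decide ((if b = true then dV x y else dN x y) = d)) := by
  have hg := h.geo ⟨.inner, false, d, x, y, 0⟩ ⟨BB_ge (by show x ≤ _; omega),
    BB_ge (by show y ≤ _; omega), Nat.zero_le _⟩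
  change PGate.Holds st (Nd.inner x y d) _ at hg
  simp only [geoGate] at hg
  by_cases c1 : dV x y = d
  · by_cases c2 : dN x y = d
    · rw [if_pos c1, if_pos c2] at hg
      rw [show st (Nd.inner x y d) = some true from hg]
      cases b <;> simp [c1, c2]
    · rw [if_pos c1, if_neg c2] at hg
      rcases hb with hb | ⟨hb1, hb2⟩
      · exact absurd (hb ▸ c1) c2
      · cases b
        · rw [hg.2.1 hb1]; simp [c2]
        · rw [hg.1 hb1 hb1]; simp [c1]
  · by_cases c2 : dN x y = d
    · rw [if_neg c1, if_pos c2] at hg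
      rcases hb with hb | ⟨hb1, hb2⟩
      · exact absurd (hb.trans c2) c1
      · cases b
        · rw [hg.1 hb2 hb2]; simp [c2]
        · rw [hg.2.1 hb2]; simp [c1]
    · rw [if_neg c1, if_neg c2] at hg
      rw [show st (Nd.inner x y d) = some false from hg]
      cases b <;> simp [c1, c2]

theorem Model.sel_other (h : Model I st) {x y : ℕ} (hx : x ≤ 20) (hy : y ≤ 20)
    (hs : sec x y ≠ Sec.right) {d : Dir} {v : Bool} (hv : st (Nd.inner x y d) = some v) :
    st (Nd.sel x y d) = some v := by
  have hg := h.geo ⟨.sel, false, d, x, y, 0⟩ ⟨BB_ge (by show x ≤ _; omega),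
    BB_ge (by show y ≤ _; omega), Nat.zero_le _⟩
  change PGate.Holds st (Nd.sel x y d) _ at hg
  simp only [geoGate] at hg
  rw [if_neg hs] at hg
  cases v
  · exact hg.2.1 hv
  · exact hg.1 hv hv

theorem Model.sel_right_true (h : Model I st) {x y : ℕ} (hx : x ≤ 20) (hy : y ≤ 20)
    (hs : sec x y = Sec.right) (ha : st (Nd.g0 .ha) = some true) (d : Dir) :
    st (Nd.sel x y d) = some (decide (dH x y = d)) := by
  have hg := h.geo ⟨.sel, false, d, x, y, 0⟩ ⟨BB_ge (by show x ≤ _; omega),
    BB_ge (by show y ≤ _; omega), Nat.zero_le _⟩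
  change PGate.Holds st (Nd.sel x y d) _ at hg
  have hn : st (Nd.g0 .nha) = some false := h.tag .nha _ ha
  simp only [geoGate] at hg
  rw [if_pos hs] at hg
  by_cases c : dH x y = d
  · rw [if_pos c] at hg
    rw [hg.1 ha, decide_eq_true c]
  · rw [if_neg c] at hg
    rw [hg.2.1 hn, decide_eq_false c]

theorem Model.sel_right_false (h : Model I st) {x y : ℕ} (hx : x ≤ 20) (hy : y ≤ 20)
    (hs : sec x y = Sec.right) (ha : st (Nd.g0 .ha) = some false) {d : Dir} {v : Bool}
    (hv : st (Nd.inner x y d) = some v) : st (Nd.sel x y d) = some v := by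
  have hg := h.geo ⟨.sel, false, d, x, y, 0⟩ ⟨BB_ge (by show x ≤ _; omega),
    BB_ge (by show y ≤ _; omega), Nat.zero_le _⟩
  change PGate.Holds st (Nd.sel x y d) _ at hg
  have hn : st (Nd.g0 .nha) = some true := h.tag .nha _ ha
  simp only [geoGate] at hg
  rw [if_pos hs] at hg
  by_cases c : dH x y = d
  · rw [if_pos c] at hg
    cases v
    · exact hg.2.2 ha hv
    · exact hg.2.1 hv
  · rw [if_neg c] at hg
    cases v
    · exact hg.2.2 hv
    · exact hg.1 hn hv

/-- One of the blocks is latched. -/
theorem Model.exists_lat (h : Model I st) {p : ℕ} (hw : Win st false p 3) :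
    ∃ q, Lat st q true := by
  by_cases hp : 8 ≤ p
  · exact ⟨false, h.lat_false (hw.tr 8 (by omega) hp)⟩
  · exact ⟨true, h.lat_true (hw.fa 13 (by omega) (by omega))⟩

theorem Model.sel_dig (h : Model I st) (hI : I.Valid) {px py : ℕ} (wx : Win st false px 3)
    (wy : Win st true py 3) {X Y : ℕ} (hX : X ≤ 20) (hY : Y ≤ 20) (hX1 : px ≤ X) (hX2 : X ≤ px + 3)
    (hY1 : py ≤ Y) (hY2 : Y ≤ py + 3) (d : Dir) :
    st (Nd.sel X Y d) = some (decide (dir (stat st) X Y = d)) := by
  rcases e : sec X Y with _ | _ | _ | _ | _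
  · -- right
    obtain ⟨h1, h2⟩ := sec_right e
    have hu1 : st Nd.u1 = some true := wx.tr 8 (by omega) (by omega)
    rcases h.ha_dig (h.lat_false hu1) with ha | ⟨ha, hva⟩
    · have hs : dir (stat st) X Y =
          if (stat st).va = true then dV X Y else dN X Y := by
        unfold dir
        rw [e, stat_ha_false ha, if_neg (by simp)]
        rfl
      rw [hs]
      refine h.sel_right_false hX hY e ha (h.inner_val hX hY ?_ d)
      by_cases c : X ≤ 16
      · exact Or.inl (dVN_right e c)
      · right
        have hu2 : st Nd.u2 = some true := wx.tr 13 (by omega) (by omega)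
        obtain ⟨b, hb⟩ := h.va_dig (h.nrst_true (Or.inr (Or.inl hu2))) (h.lat_false hu1)
        rw [e, stat_va hb]
        exact ⟨hb, h.tag .nva _ hb⟩
    · have hs : dir (stat st) X Y = dH X Y := by
        unfold dir
        rw [e, stat_ha_true ha hva]
        simp
      rw [hs]
      exact h.sel_right_true hX hY e ha d
  · -- top
    obtain ⟨h1, h2⟩ := sec_top e
    have hs : dir (stat st) X Y = if (stat st).v2 = true then dV X Y else dN X Y := by
      unfold dir
      rw [e, if_neg (by simp)]
      rfl
    rw [hs]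
    refine h.sel_other hX hY (by rw [e]; simp) (h.inner_val hX hY ?_ d)
    by_cases c : Y ≤ 16
    · exact Or.inl (dVN_top e c)
    · right
      have hw2 : st Nd.w2 = some true := wy.tr 13 (by omega) (by omega)
      obtain ⟨q, hq⟩ := h.exists_lat wx
      obtain ⟨b, hb⟩ := h.v2_dig hI (h.nrst_true (Or.inr (Or.inr (Or.inr hw2)))) hq hw2
      rw [e, stat_v2 hb]
      exact ⟨hb, h.tag .nv2 _ hb⟩
  · -- left
    obtain ⟨h1, h2⟩ := sec_left e
    have hs : dir (stat st) X Y = if (stat st).vb = true then dV X Y else dN X Y := by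
      unfold dir
      rw [e, if_neg (by simp)]
      rfl
    rw [hs]
    refine h.sel_other hX hY (by rw [e]; simp) (h.inner_val hX hY ?_ d)
    by_cases c : 4 ≤ X
    · exact Or.inl (dVN_left e c)
    · right
      have hu1 : st Nd.u1 = some false := wx.fa 8 (by omega) (by omega)
      have hu2 : st Nd.u2 = some false := wx.fa 13 (by omega) (by omega)
      obtain ⟨b, hb⟩ := h.vb_dig (h.nrst_true (Or.inl hu1)) (h.lat_true hu2)
      rw [e, stat_vb hb]
      exact ⟨hb, h.tag .nvb _ hb⟩
  · -- bottom
    obtain ⟨h1, h2⟩ := sec_bottom e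
    have hs : dir (stat st) X Y = if (stat st).v4 = true then dV X Y else dN X Y := by
      unfold dir
      rw [e, if_neg (by simp)]
      rfl
    rw [hs]
    refine h.sel_other hX hY (by rw [e]; simp) (h.inner_val hX hY ?_ d)
    by_cases c : 4 ≤ Y
    · exact Or.inl (dVN_bottom e c)
    · right
      have hw1 : st Nd.w1 = some false := wy.fa 8 (by omega) (by omega)
      have hw2 : st Nd.w2 = some false := wy.fa 13 (by omega) (by omega)
      obtain ⟨q, hq⟩ := h.exists_lat wx
      obtain ⟨b, hb⟩ := h.v4_dig (h.nrst_true (Or.inr (Or.inr (Or.inl hw1)))) hq hw2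
      rw [e, stat_v4 hb]
      exact ⟨hb, h.tag .nv4 _ hb⟩
  · -- centre
    have hs : dir (stat st) X Y = if false = true then dV X Y else dN X Y := by
      unfold dir
      rw [e, if_neg (by simp)]
      rfl
    rw [hs]
    exact h.sel_other hX hY (by rw [e]; simp) (h.inner_val hX hY (Or.inl (dVN_centre e)) d)

end Vale.Agent.P330.LS
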