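import Vale.Agent.Lib.PolyTime.TypedTM2

/-!
End-of-Line, generalized circuits, polynomial time.
-/

namespace Vale.Agent.P330.LS

open Vale.Agent.Lib.PolyTime

/-! ### Boolean circuits and End-of-Line -/

/-- A gate of a Boolean circuit; the operands are numbers of nodes. -/
inductive BGate : Type
  | and (u v : ℕ)
  | or (u v : ℕ)
  | not (u : ℕ)

/-- Value of a gate, given the list of the values of the nodes. -/
def BGate.eval (w : List Bool) : BGate → Bool
  | .and u v => w.getD u false && w.getD v false
  | .or u v => w.getD u false || w.getD v false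
  | .not u => !(w.getD u false)

/-- The operands of the gate are nodes with numbers less than `k`. -/
def BGate.Below (k : ℕ) : BGate → Prop
  | .and u v => u < k ∧ v < k
  | .or u v => u < k ∧ v < k
  | .not u => u < k

/-- An explicitly listed Boolean circuit. If it has `n` inputs, then its nodes are the inputs
`0, …, n - 1` and the gates `n, n + 1, …`, in the order of the list `gates`. The list `outs`
contains the numbers of the output nodes. -/
structure BCirc : Type where
  gates : List BGate
  outs : List ℕ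

/-- The values of all nodes, if `v` is the list of the values of the inputs. -/
def BCirc.vals (C : BCirc) (v : List Bool) : List Bool :=
  C.gates.foldl (fun w g => w ++ [g.eval w]) v

/-- The output for the input `v`. -/
def BCirc.eval (C : BCirc) (v : List Bool) : List Bool :=
  C.outs.map fun i => (C.vals v).getD i false

/-- `C` is a circuit with `n` inputs and `n` outputs: the operands of each gate are earlier nodes,
there are `n` outputs, and all outputs are nodes. -/
def BCirc.WF (n : ℕ) (C : BCirc) : Prop :=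
  (∀ k (h : k < C.gates.length), (C.gates[k]).Below (n + k)) ∧ C.outs.length = n ∧
    ∀ i ∈ C.outs, i < n + C.gates.length

/-- An instance of End-of-Line: the number `n` of bits and the circuits `S` and `P`. -/
structure EoL : Type where
  n : ℕ
  S : BCirc
  P : BCirc

/-- The string `0ⁿ`. -/
def zeros (n : ℕ) : List Bool := List.replicate n false

/-- The promise of End-of-Line. -/
def EoL.Valid (I : EoL) : Prop :=
  1 ≤ I.n ∧ I.S.WF I.n ∧ I.P.WF I.n ∧ I.P.eval (zeros I.n) = zeros I.n ∧
    I.S.eval (zeros I.n) ≠ zeros I.n ∧ I.P.eval (I.S.eval (zeros I.n)) = zeros I.n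

/-- `v` is a solution of the instance `I`. -/
def EoL.IsSol (I : EoL) (v : List Bool) : Prop :=
  v.length = I.n ∧ v ≠ zeros I.n ∧ (I.P.eval (I.S.eval v) ≠ v ∨ I.S.eval (I.P.eval v) ≠ v)

/-! ### Generalized circuits -/

/-- Gates of generalized circuits, with their parameter and their input nodes. -/
inductive Gate : Type
  | const (α : ℚ)
  | scale (α : ℚ) (a : ℕ)
  | copy (a : ℕ)
  | add (a b : ℕ)
  | sub (a b : ℕ)
  | less (a b : ℕ)
  | not (a : ℕ)
  | or (a b : ℕ)
  | and (a b : ℕ)

/-- The gate `g` with output node `z` is `ε`-satisfied by `x`. -/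
def Gate.Sat (ε : ℝ) (x : ℕ → ℝ) (z : ℕ) : Gate → Prop
  | .const α => |x z - α| ≤ ε
  | .scale α a => |x z - α * x a| ≤ ε
  | .copy a => |x z - x a| ≤ ε
  | .add a b => |x z - min (x a + x b) 1| ≤ ε
  | .sub a b => |x z - max (x a - x b) 0| ≤ ε
  | .less a b => (x a < x b - ε → 1 - ε ≤ x z) ∧ (x b + ε < x a → x z ≤ ε)
  | .not a => (x a ≤ ε → 1 - ε ≤ x z) ∧ (1 - ε ≤ x a → x z ≤ ε)
  | .or a b => (1 - ε ≤ x a ∨ 1 - ε ≤ x b → 1 - ε ≤ x z) ∧ (x a ≤ ε ∧ x b ≤ ε → x z ≤ ε)
  | .and a b => (1 - ε ≤ x a ∧ 1 - ε ≤ x b → 1 - ε ≤ x z) ∧ (x a ≤ ε ∨ x b ≤ ε → x z ≤ ε)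

/-- Parameters are in `[0, 1]` and input nodes are less than `k`. -/
def Gate.WF (k : ℕ) : Gate → Prop
  | .const α => 0 ≤ α ∧ α ≤ 1
  | .scale α a => 0 ≤ α ∧ α ≤ 1 ∧ a < k
  | .copy a => a < k
  | .add a b => a < k ∧ b < k
  | .sub a b => a < k ∧ b < k
  | .less a b => a < k ∧ b < k
  | .not a => a < k
  | .or a b => a < k ∧ b < k
  | .and a b => a < k ∧ b < k

/-- A generalized circuit with nodes `0, …, nodes - 1`; the list `gates` contains the gates with
their output nodes. -/
structure GCirc : Type where
  nodes : ℕ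
  gates : List (ℕ × Gate)

/-- There is at least one gate, inputs and outputs of gates are nodes, parameters are in `[0, 1]`,
and each node is the output of at most one gate. -/
def GCirc.WF (G : GCirc) : Prop :=
  G.gates ≠ [] ∧ (∀ g ∈ G.gates, g.1 < G.nodes ∧ g.2.WF G.nodes) ∧ (G.gates.map Prod.fst).Nodup

/-- `x` lists a rational number in `[0, 1]` for each node. -/
def GCirc.IsAssign (G : GCirc) (x : List ℚ) : Prop :=
  x.length = G.nodes ∧ ∀ q ∈ x, 0 ≤ q ∧ q ≤ 1

/-- The real value of a node. -/
def value (x : List ℚ) (v : ℕ) : ℝ := ((x.getD v 0 : ℚ) : ℝ)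

open Classical in
/-- The number of gates that are not `ε`-satisfied. -/
noncomputable def GCirc.violated (G : GCirc) (ε : ℝ) (x : List ℚ) : ℕ :=
  G.gates.countP fun g => decide (¬ g.2.Sat ε (value x) g.1)

/-! ### Encodings and polynomial time -/

/-- Boolean gates are encoded as triples of numbers. -/
def BGate.code : BGate → ℕ × ℕ × ℕ
  | .and u v => (0, u, v)
  | .or u v => (1, u, v)
  | .not u => (2, u, 0)

instance : Enc BGate := ⟨fun g => enc g.code⟩
instance : Enc BCirc := ⟨fun C => enc (C.gates, C.outs)⟩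
instance : Enc EoL := ⟨fun I => enc (I.n, I.S, I.P)⟩
instance : Enc ℚ := ⟨fun q => enc (decide (q < 0), q.num.natAbs, q.den)⟩

/-- Gates are encoded by their kind, their parameter and their inputs. -/
def Gate.code : Gate → ℕ × ℚ × ℕ × ℕ
  | .const α => (0, α, 0, 0)
  | .scale α a => (1, α, a, 0)
  | .copy a => (2, 0, a, 0)
  | .add a b => (3, 0, a, b)
  | .sub a b => (4, 0, a, b)
  | .less a b => (5, 0, a, b)
  | .not a => (6, 0, a, 0)
  | .or a b => (7, 0, a, b)
  | .and a b => (8, 0, a, b)

instance : Enc Gate := ⟨fun g => enc g.code⟩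
instance : Enc GCirc := ⟨fun G => enc (G.nodes, G.gates)⟩

/-- The length of the encoding as a bit string. -/
def len {α : Type} [Enc α] (a : α) : ℕ := (enc a : List Bool).length

/-- `f` is computed in polynomial time by a multi-stack Turing machine (of Mathlib), with inputs
and outputs encoded as bit strings. -/
def PolyTime {α β : Type} [Enc α] [Enc β] (f : α → β) : Prop :=
  ∃ M : Turing.TM2ComputableInPolyTime (enc : α → List Bool) (enc : β → List Bool) f,
    ∀ k, Finite (M.tm.Γ k)

end Vale.Agent.P330.LS
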