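import Vale.Agent.P330.LS.Defs
import Vale.Agent.P330.Brouwer
import Vale.Agent.Lib.PolyTime.Lists2

/-!
Every generalized circuit has an assignment that satisfies all gates, with values in a fixed grid.
-/

namespace Vale.Agent.P330.LS

open Vale.Agent.Lib.PolyTime

/-- Clamping to `[0, 1]`. -/
noncomputable def cl (v : ℝ) : ℝ := max 0 (min 1 v)

theorem cl_nonneg (v : ℝ) : 0 ≤ cl v := le_max_left _ _
theorem cl_le_one (v : ℝ) : cl v ≤ 1 := max_le zero_le_one (min_le_left _ _)
theorem cl_of_ge {v : ℝ} (h : 1 ≤ v) : cl v = 1 := by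
  unfold cl; rw [min_eq_left h]; exact max_eq_right zero_le_one
theorem cl_of_le {v : ℝ} (h : v ≤ 0) : cl v = 0 := by
  unfold cl; rw [min_eq_right (h.trans zero_le_one)]; exact max_eq_left h
theorem cl_of_mem {v : ℝ} (h : 0 ≤ v) (h' : v ≤ 1) : cl v = v := by
  unfold cl; rw [min_eq_right h']; exact max_eq_right h
theorem continuous_cl : Continuous cl := continuous_const.max (continuous_const.min continuous_id)

/-- Target value of a node. -/
noncomputable def Gate.target (ε : ℝ) (x : ℕ → ℝ) : Gate → ℝ
  | .const α => cl α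
  | .scale α a => cl (α * x a)
  | .copy a => cl (x a)
  | .add a b => cl (min (x a + x b) 1)
  | .sub a b => cl (max (x a - x b) 0)
  | .less a b => cl (1 / 2 + (x b - x a) / ε)
  | .not a => cl (3 / 2 - 2 * x a)
  | .or a b => cl (2 * max (x a) (x b) - 1 / 2)
  | .and a b => cl (2 * min (x a) (x b) - 1 / 2)

theorem Gate.target_nonneg (ε : ℝ) (x : ℕ → ℝ) (g : Gate) : 0 ≤ g.target ε x := by
  cases g <;> exact cl_nonneg _

theorem Gate.target_le_one (ε : ℝ) (x : ℕ → ℝ) (g : Gate) : g.target ε x ≤ 1 := by
  cases g <;> exact cl_le_one _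

theorem Gate.continuous_target {ι : Type} [TopologicalSpace ι] (ε : ℝ) (x : ι → ℕ → ℝ)
    (hx : ∀ k, Continuous fun i => x i k) (g : Gate) : Continuous fun i => g.target ε (x i) := by
  cases g with
  | const α => exact continuous_const
  | scale α a => exact continuous_cl.comp (continuous_const.mul (hx a))
  | copy a => exact continuous_cl.comp (hx a)
  | add a b => exact continuous_cl.comp (((hx a).add (hx b)).min continuous_const)
  | sub a b => exact continuous_cl.comp (((hx a).sub (hx b)).max continuous_const)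
  | less a b => exact continuous_cl.comp (continuous_const.add (((hx b).sub (hx a)).div_const ε))
  | not a => exact continuous_cl.comp (continuous_const.sub (continuous_const.mul (hx a)))
  | or a b => exact continuous_cl.comp ((continuous_const.mul ((hx a).max (hx b))).sub
      continuous_const)
  | and a b => exact continuous_cl.comp ((continuous_const.mul ((hx a).min (hx b))).sub
      continuous_const)

/-- A gate is satisfied by a rounding of a fixed point. -/
theorem Gate.sat_of_target {ε r : ℝ} (h0 : 0 < ε) (h1 : ε < 1 / 8) (hr0 : 0 ≤ r)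
    (hr : 4 * r ≤ ε) {x y : ℕ → ℝ} {k z : ℕ} {g : Gate} (hg : g.WF k)
    (hy : ∀ a < k, 0 ≤ y a ∧ y a ≤ 1 ∧ |x a - y a| ≤ r) (hz : z < k)
    (ht : y z = g.target ε y) : g.Sat ε x z := by
  have hz' := (hy z hz).2.2
  rw [ht] at hz'
  rw [abs_le] at hz'
  cases g with
  | const α =>
    simp only [Gate.WF] at hg
    have hα0 : (0 : ℝ) ≤ α := by exact_mod_cast hg.1
    have hα1 : (α : ℝ) ≤ 1 := by exact_mod_cast hg.2
    simp only [Gate.target, cl_of_mem hα0 hα1] at hz'
    show |x z - α| ≤ ε
    rw [abs_le]; constructor <;> linarith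
  | scale α a =>
    obtain ⟨ha0, ha1, ha⟩ := hy a hg.2.2
    rw [abs_le] at ha
    have hα0 : (0 : ℝ) ≤ α := by exact_mod_cast hg.1
    have hα1 : (α : ℝ) ≤ 1 := by exact_mod_cast hg.2.1
    have e1 : 0 ≤ (α : ℝ) * y a := mul_nonneg hα0 ha0
    have e2 : (α : ℝ) * y a ≤ 1 := mul_le_one₀ hα1 ha0 ha1
    simp only [Gate.target, cl_of_mem e1 e2] at hz'
    show |x z - α * x a| ≤ ε
    have e3 : (α : ℝ) * (x a - y a) ≤ r := by nlinarith
    have e4 : -r ≤ (α : ℝ) * (x a - y a) := by nlinarith
    rw [abs_le]; constructor <;> nlinarith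
  | copy a =>
    obtain ⟨ha0, ha1, ha⟩ := hy a hg
    rw [abs_le] at ha
    simp only [Gate.target, cl_of_mem ha0 ha1] at hz'
    show |x z - x a| ≤ ε
    rw [abs_le]; constructor <;> linarith
  | add a b =>
    obtain ⟨ha0, ha1, ha⟩ := hy a hg.1
    obtain ⟨hb0, hb1, hb⟩ := hy b hg.2
    rw [abs_le] at ha hb
    have e1 : 0 ≤ min (y a + y b) 1 := le_min (by linarith) zero_le_one
    simp only [Gate.target, cl_of_mem e1 (min_le_right _ _)] at hz'
    show |x z - min (x a + x b) 1| ≤ ε
    rw [abs_le]
    constructor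
    · have : min (x a + x b) 1 ≤ min (y a + y b) 1 + 2 * r := by
        rcases le_total (y a + y b) 1 with h | h
        · rw [min_eq_left h]; exact (min_le_left _ _).trans (by linarith)
        · rw [min_eq_right h]; exact (min_le_right _ _).trans (by linarith)
      linarith
    · have : min (y a + y b) 1 ≤ min (x a + x b) 1 + 2 * r := by
        rcases le_total (x a + x b) 1 with h | h
        · rw [min_eq_left h]; exact (min_le_left _ _).trans (by linarith)
        · rw [min_eq_right h]; exact (min_le_right _ _).trans (by linarith)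
      linarith
  | sub a b =>
    obtain ⟨ha0, ha1, ha⟩ := hy a hg.1
    obtain ⟨hb0, hb1, hb⟩ := hy b hg.2
    rw [abs_le] at ha hb
    have e1 : max (y a - y b) 0 ≤ 1 := max_le (by linarith) zero_le_one
    simp only [Gate.target, cl_of_mem (le_max_right _ _) e1] at hz'
    show |x z - max (x a - x b) 0| ≤ ε
    rw [abs_le]
    constructor
    · have : max (x a - x b) 0 ≤ max (y a - y b) 0 + 2 * r := by
        rcases le_total 0 (x a - x b) with h | h
        · rw [max_eq_left h]
          have := le_max_left (y a - y b) 0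
          linarith
        · rw [max_eq_right h]
          have := le_max_right (y a - y b) 0
          linarith
      linarith
    · have : max (y a - y b) 0 ≤ max (x a - x b) 0 + 2 * r := by
        rcases le_total 0 (y a - y b) with h | h
        · rw [max_eq_left h]
          have := le_max_left (x a - x b) 0
          linarith
        · rw [max_eq_right h]
          have := le_max_right (x a - x b) 0
          linarith
      linarith
  | less a b =>
    obtain ⟨ha0, ha1, ha⟩ := hy a hg.1
    obtain ⟨hb0, hb1, hb⟩ := hy b hg.2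
    rw [abs_le] at ha hb
    simp only [Gate.target] at hz'
    constructor
    · intro h
      have e1 : 1 ≤ 1 / 2 + (y b - y a) / ε := by
        have : 1 / 2 ≤ (y b - y a) / ε := by rw [le_div_iff₀ h0]; linarith
        linarith
      rw [cl_of_ge e1] at hz'
      linarith
    · intro h
      have e1 : 1 / 2 + (y b - y a) / ε ≤ 0 := by
        have : (y b - y a) / ε ≤ -(1 / 2) := by rw [div_le_iff₀ h0]; linarith
        linarith
      rw [cl_of_le e1] at hz'
      linarith
  | not a =>
    obtain ⟨ha0, ha1, ha⟩ := hy a hg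
    rw [abs_le] at ha
    simp only [Gate.target] at hz'
    constructor
    · intro h
      rw [cl_of_ge (by linarith)] at hz'
      linarith
    · intro h
      rw [cl_of_le (by linarith)] at hz'
      linarith
  | or a b =>
    obtain ⟨ha0, ha1, ha⟩ := hy a hg.1
    obtain ⟨hb0, hb1, hb⟩ := hy b hg.2
    rw [abs_le] at ha hb
    simp only [Gate.target] at hz'
    constructor
    · intro h
      have : 1 - ε - r ≤ max (y a) (y b) := by
        rcases h with h | h
        · exact le_trans (by linarith) (le_max_left _ _)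
        · exact le_trans (by linarith) (le_max_right _ _)
      rw [cl_of_ge (by linarith)] at hz'
      linarith
    · intro h
      have : max (y a) (y b) ≤ ε + r := max_le (by linarith [h.1]) (by linarith [h.2])
      rw [cl_of_le (by linarith)] at hz'
      linarith
  | and a b =>
    obtain ⟨ha0, ha1, ha⟩ := hy a hg.1
    obtain ⟨hb0, hb1, hb⟩ := hy b hg.2
    rw [abs_le] at ha hb
    simp only [Gate.target] at hz'
    constructor
    · intro h
      have : 1 - ε - r ≤ min (y a) (y b) := le_min (by linarith [h.1]) (by linarith [h.2])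
      rw [cl_of_ge (by linarith)] at hz'
      linarith
    · intro h
      have : min (y a) (y b) ≤ ε + r := by
        rcases h with h | h
        · exact le_trans (min_le_left _ _) (by linarith)
        · exact le_trans (min_le_right _ _) (by linarith)
      rw [cl_of_le (by linarith)] at hz'
      linarith

/-- Target value, rescaled, for an optional gate. -/
noncomputable def optT (ε : ℝ) (x : ℕ → ℝ) : Option (ℕ × Gate) → ℝ
  | some g => 2 * g.2.target ε x - 1
  | none => 0

theorem continuous_optT {ι : Type} [TopologicalSpace ι] (ε : ℝ) (x : ι → ℕ → ℝ)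
    (hx : ∀ k, Continuous fun i => x i k) (o : Option (ℕ × Gate)) :
    Continuous fun i => optT ε (x i) o := by
  rcases o with _ | g
  · exact continuous_const
  · exact (continuous_const.mul (Gate.continuous_target ε x hx g.2)).sub continuous_const

theorem abs_optT (ε : ℝ) (x : ℕ → ℝ) (o : Option (ℕ × Gate)) : |optT ε x o| ≤ 1 := by
  rcases o with _ | g
  · simp [optT]
  · have h1 := Gate.target_nonneg ε x g.2
    have h2 := Gate.target_le_one ε x g.2
    show |2 * g.2.target ε x - 1| ≤ 1
    rw [abs_le]
    constructor <;> linarith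

/-- Existence of a real fixed point. -/
theorem exists_fixed (G : GCirc) (hG : G.WF) (ε : ℝ) :
    ∃ y : ℕ → ℝ, (∀ a, 0 ≤ y a ∧ y a ≤ 1) ∧ ∀ g ∈ G.gates, y g.1 = g.2.target ε y := by
  classical
  set N := G.nodes with hN
  let ext : (Fin N → ℝ) → ℕ → ℝ := fun u k => if h : k < N then cl ((1 + u ⟨k, h⟩) / 2) else 0
  have hext : ∀ k, Continuous fun u => ext u k := by
    intro k
    by_cases h : k < N
    · simp only [ext, dif_pos h]
      exact continuous_cl.comp ((continuous_const.add (continuous_apply _)).div_const _)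
    · simp only [ext, dif_neg h]
      exact continuous_const
  let F : (Fin N → ℝ) → Fin N → ℝ := fun u k =>
    optT ε (ext u) (G.gates.find? (fun g => g.1 = (k : ℕ)))
  have hF : Continuous F := continuous_pi fun k => continuous_optT ε ext hext _
  have hF1 : ∀ u, ‖u‖ ≤ 1 → ‖F u‖ ≤ 1 := by
    intro u _
    rw [pi_norm_le_iff_of_nonneg zero_le_one]
    intro k
    exact abs_optT _ _ _
  obtain ⟨u, hu1, hu⟩ := brouwer_cube F hF hF1
  refine ⟨ext u, fun a => ?_, fun g hg => ?_⟩
  · by_cases h : a < N
    · simp only [ext, dif_pos h]; exact ⟨cl_nonneg _, cl_le_one _⟩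
    · simp only [ext, dif_neg h]; exact ⟨le_rfl, zero_le_one⟩
  · have hlt : g.1 < N := (hG.2.1 g hg).1
    have hfind : G.gates.find? (fun g' => g'.1 = g.1) = some g := by
      have hnd := hG.2.2
      rcases e : G.gates.find? (fun g' => g'.1 = g.1) with _ | g'
      · rw [List.find?_eq_none] at e
        exact absurd (by simp) (e g hg)
      · have h1 := List.find?_some e
        have h2 := List.mem_of_find?_eq_some e
        simp only [decide_eq_true_eq] at h1
        rw [e, List.inj_on_of_nodup_map hnd h2 hg h1]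
    have h3 : u ⟨g.1, hlt⟩ = 2 * g.2.target ε (ext u) - 1 := by
      have := congrFun hu ⟨g.1, hlt⟩
      rw [← this]
      simp only [F, hfind]
      rfl
    show (if h : g.1 < N then cl ((1 + u ⟨g.1, h⟩) / 2) else 0) = _
    rw [dif_pos hlt, h3]
    rw [show (1 + (2 * g.2.target ε (ext u) - 1)) / 2 = g.2.target ε (ext u) by ring]
    exact cl_of_mem (Gate.target_nonneg _ _ _) (Gate.target_le_one _ _ _)

/-- Every well-formed generalized circuit has an assignment that satisfies all gates and whose
values have bounded encoding length. -/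
theorem exists_assign {ε : ℝ} (h0 : 0 < ε) (h1 : ε < 1 / 8) : ∃ B : ℕ, ∀ G : GCirc, G.WF →
    ∃ x : List ℚ, G.IsAssign x ∧ G.violated ε x = 0 ∧ len x ≤ B * G.nodes := by
  obtain ⟨M, hM⟩ := exists_nat_gt (4 / ε)
  have hM0 : (0 : ℝ) < M := lt_trans (by positivity) hM
  have hM0' : 0 < M := by exact_mod_cast hM0
  have hr : 4 * (1 / (M : ℝ)) ≤ ε := by
    rw [mul_one_div, div_le_iff₀ hM0]
    rw [div_lt_iff₀ h0] at hM
    linarith
  -- bound for the encoding length of a value
  obtain ⟨B, hB⟩ : ∃ B : ℕ, ∀ k ≤ M, esize ((k : ℚ) / M) ≤ B := by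
    refine ⟨∑ k ∈ Finset.range (M + 1), esize ((k : ℚ) / M), fun k hk => ?_⟩
    exact Finset.single_le_sum (f := fun k : ℕ => esize ((k : ℚ) / M))
      (fun _ _ => Nat.zero_le _) (Finset.mem_range.2 (by omega))
  refine ⟨2 * B + 1, fun G hG => ?_⟩
  obtain ⟨y, hy, hfix⟩ := exists_fixed G hG ε
  set k : ℕ → ℕ := fun z => ⌊y z * M⌋₊ with hk
  have hkM : ∀ z, k z ≤ M := by
    intro z
    have : y z * M ≤ M := by nlinarith [(hy z).2]
    exact (Nat.floor_le_floor this).trans (by simp)
  set x : List ℚ := (List.range G.nodes).map fun z => (k z : ℚ) / M with hx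
  have hxlen : x.length = G.nodes := by simp [hx]
  have hval : ∀ z < G.nodes, value x z = (k z : ℝ) / M := by
    intro z hz
    unfold value
    rw [List.getD_eq_getElem _ _ (by rw [hxlen]; exact hz)]
    simp [hx]
  refine ⟨x, ⟨hxlen, fun q hq => ?_⟩, ?_, ?_⟩
  · obtain ⟨z, -, rfl⟩ := List.mem_map.1 hq
    have hM' : (0 : ℚ) < M := by exact_mod_cast hM0'
    refine ⟨by positivity, ?_⟩
    rw [div_le_one hM']
    exact_mod_cast hkM z
  · unfold GCirc.violated
    rw [List.countP_eq_zero]
    intro g hg
    simp only [decide_eq_true_eq, not_not]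
    refine Gate.sat_of_target (r := 1 / (M : ℝ)) (y := y) h0 h1 (by positivity) hr
      (hG.2.1 g hg).2 (fun a ha => ⟨(hy a).1, (hy a).2, ?_⟩) (hG.2.1 g hg).1 (hfix g hg)
    rw [hval a ha]
    have e1 : (k a : ℝ) ≤ y a * M := Nat.floor_le (mul_nonneg (hy a).1 hM0.le)
    have e2 : y a * M < k a + 1 := Nat.lt_floor_add_one _
    rw [abs_le]
    constructor
    · rw [neg_le_sub_iff_le_add]
      rw [← sub_le_iff_le_add, ← mul_le_mul_iff_left₀ hM0, sub_mul, div_mul_cancel₀ _ hM0.ne',
        div_mul_cancel₀ _ hM0.ne']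
      linarith
    · have : (k a : ℝ) / M ≤ y a := by rw [div_le_iff₀ hM0]; exact e1
      have : (0 : ℝ) ≤ 1 / M := by positivity
      linarith
  · show esize x ≤ _
    have := esize_list_le (l := x) (B := B) fun q hq => by
      obtain ⟨z, -, rfl⟩ := List.mem_map.1 hq
      exact hB _ (hkM z)
    rw [hxlen] at this
    linarith

end Vale.Agent.P330.LS
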