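import Vale.Agent.P330.LS.Poly
import Vale.Agent.P330.LS.Exists

/-!
Size of the reduction and the final statement.
-/

namespace Vale.Agent.P330.LS

open Vale.Agent.Lib.PolyTime

/-! ### Soundness of the decoder -/

theorem isSolB_iff {I : EoL} {v : List Bool} (hv : v.length = I.n) :
    isSolB I v = true ↔ I.IsSol v := by
  unfold isSolB EoL.IsSol
  rw [Bool.and_eq_true, Bool.or_eq_true, decide_eq_true_iff, decide_eq_true_iff,
    decide_eq_true_iff]
  simp [hv]

theorem decode_sound {ε : ℝ} (h1 : ε < 1 / 2) {I : EoL} (hI : I.Valid) {x : List ℚ}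
    (hs : Sol I (fun z => status ε (value x (num I z)))) : I.IsSol (decode (I, x)) := by
  obtain ⟨q, v, ⟨hv1, hv2⟩, hsol⟩ := hs
  have hread : readBlock I x q = v := by
    refine List.ext_getElem (by simp [readBlock, hv1]) fun i h2 h3 => ?_
    have hi : i < I.n := by rw [hv1] at h3; exact h3
    have h4 := (hv2 i hi).2.1
    rw [List.getD_eq_getElem _ _ h3] at h4
    simp only [readBlock, List.getElem_map, List.getElem_range]
    have h4' : status ε (value x (num I (.fld i (.r q)))) = some v[i] := h4
    rcases e : v[i] with _ | _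
    · rw [e] at h4'
      have h5 := of_status_false h4'
      unfold value at h5
      rw [decide_eq_false_iff_not, not_lt]
      have : ((x.getD (num I (.fld i (.r q))) 0 : ℚ) : ℝ) ≤ ((1 / 2 : ℚ) : ℝ) := by
        push_cast; linarith
      exact_mod_cast this
    · rw [e] at h4'
      have h5 := of_status_true h4'
      unfold value at h5
      rw [decide_eq_true_iff]
      have : ((1 / 2 : ℚ) : ℝ) < ((x.getD (num I (.fld i (.r q))) 0 : ℚ) : ℝ) := by
        push_cast; linarith
      exact_mod_cast this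
  unfold decode
  simp only [nrm_eq hI]
  have hlen : (readBlock I x false).length = I.n := by simp [readBlock]
  split_ifs with hc
  · exact (isSolB_iff hlen).1 hc
  · cases q
    · rw [hread] at hc
      exact absurd ((isSolB_iff hv1).2 hsol) hc
    · rw [hread]; exact hsol

/-! ### Size -/

theorem esize_gate (g : Gate) : esize g = esize g.code := rfl

theorem gate_esize_le {c s N : ℕ} (h1 : esize (1 : ℚ) ≤ c) (h0 : esize (0 : ℚ) ≤ c)
    (hs : ∀ m < N, esize m ≤ s) {f : Nd → ℕ} {p : PGate Nd}
    (hN : 2 ≤ N) (hp : p.All fun a => f a < N) : esize (toG f p) ≤ 11 + 2 * c + 3 * s := by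
  have e8 : ∀ k, k ≤ 8 → esize k ≤ 4 := fun k hk => esize_nat_le (by omega)
  have hs0 := hs 0 (by omega)
  have hs1 := hs 1 (by omega)
  cases p with
  | const b =>
    rw [esize_gate]
    simp only [toG, Gate.code, esize_pair]
    have := e8 0 (by omega)
    cases b
    · simp only [Bool.false_eq_true, if_false]; omega
    · simp only [if_true]; omega
  | not a =>
    rw [esize_gate]
    simp only [toG, Gate.code, esize_pair]
    have := e8 6 (by omega)
    have := hs _ hp
    omega
  | and a b =>
    rw [esize_gate]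
    simp only [toG, Gate.code, esize_pair]
    have := e8 8 (by omega)
    have := hs _ hp.1
    have := hs _ hp.2
    omega
  | or a b =>
    rw [esize_gate]
    simp only [toG, Gate.code, esize_pair]
    have := e8 7 (by omega)
    have := hs _ hp.1
    have := hs _ hp.2
    omega
  | lo a =>
    rw [esize_gate]
    simp only [toG, Gate.code, esize_pair]
    have := e8 5 (by omega)
    have := hs _ hp
    omega
  | hi a =>
    rw [esize_gate]
    simp only [toG, Gate.code, esize_pair]
    have := e8 5 (by omega)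
    have := hs _ hp
    omega

theorem esize_gcirc (G : GCirc) : esize G = 2 * esize G.nodes + esize G.gates + 1 :=
  esize_pair G.nodes G.gates

theorem esize_eol (I : EoL) : esize I = 2 * esize I.n + (2 * esize I.S + esize I.P + 1) + 1 := by
  have : esize I = esize (I.n, I.S, I.P) := rfl
  rw [this, esize_pair, esize_pair]

theorem esize_circ (C : BCirc) : esize C = 2 * esize C.gates + esize C.outs + 1 :=
  esize_pair C.gates C.outs

theorem red_size (t1 t2 : ℚ) : ∃ C : ℕ, ∀ I : EoL, I.Valid →
    (red t1 t2 I).gates.length ≤ C * len I ∧ (red t1 t2 I).nodes ≤ len (red t1 t2 I) ∧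
      len (red t1 t2 I) ≤ C * (len I * Nat.log 2 (len I)) := by
  set c : ℕ := esize (0 : ℚ) + esize (1 : ℚ) + esize t1 + esize t2 with hc
  set C1 : ℕ := 4 + G0 + 2 * FF with hC1
  set C2 : ℕ := Nat.log 2 C1 + 3 with hC2
  set C3 : ℕ := 5 * C2 + 2 * c + 12 with hC3
  refine ⟨C1 + (2 * C2 + C1 * (2 * C3 + 1) + 1), fun I hI => ?_⟩
  set N := esize I with hN
  have hlenI : len I = N := rfl
  have hn : I.n ≤ N := by
    rw [← hI.2.1.2.1]
    have h1 := length_le_esize I.S.outs
    rw [hN, esize_eol, esize_circ]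
    omega
  have hS : I.S.gates.length ≤ N := by
    have h1 := length_le_esize I.S.gates
    rw [hN, esize_eol, esize_circ]
    omega
  have hP : I.P.gates.length ≤ N := by
    have h1 := length_le_esize I.P.gates
    rw [hN, esize_eol, esize_circ I.P]
    omega
  have hN2 : 2 ≤ N := by rw [hN, esize_eol]; omega
  have htot : total I ≤ C1 * N := by
    unfold total
    have h1 : FF * (I.n + 1) ≤ FF * (N + N) := Nat.mul_le_mul_left _ (by omega)
    have h2 : G0 ≤ G0 * N := Nat.le_mul_of_pos_right _ (by omega)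
    rw [hC1]
    nlinarith
  have hL1 : 1 ≤ Nat.log 2 N := Nat.log_pos (by norm_num) hN2
  set Lg := Nat.log 2 N with hLg
  have hs : ∀ m, m ≤ total I → esize m ≤ C2 * Lg := by
    intro m hm
    have h1 : m < 2 ^ (Nat.log 2 C1 + 1 + (Lg + 1)) := by
      calc m ≤ C1 * N := hm.trans htot
        _ < 2 ^ (Nat.log 2 C1 + 1) * 2 ^ (Lg + 1) :=
            Nat.mul_lt_mul'' (Nat.lt_pow_succ_log_self (by norm_num) _)
              (Nat.lt_pow_succ_log_self (by norm_num) _)
        _ = _ := by rw [← pow_add]
    refine (esize_nat_le h1).trans ?_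
    rw [hC2]
    nlinarith
  have hlen : (red t1 t2 I).gates.length = total I := by
    rw [← List.length_map (f := Prod.fst), red_fst, List.length_range]
  have hent : ∀ g ∈ (red t1 t2 I).gates, esize g ≤ C3 * Lg := by
    intro g hg
    have key : ∀ (z : ℕ) (h : Gate), z ≤ total I → esize h ≤ 11 + 2 * c + 3 * (C2 * Lg) →
        esize (z, h) ≤ C3 * Lg := by
      intro z h hz hh
      rw [esize_pair]
      have h1 := hs z hz
      have h2 : 12 + 2 * c ≤ (12 + 2 * c) * Lg := Nat.le_mul_of_pos_right _ (by omega)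
      rw [hC3]
      nlinarith
    have htt := two_le_total I
    have hs' : ∀ m < total I, esize m ≤ C2 * Lg := fun m hm => hs m hm.le
    rcases mem_red_iff hg with rfl | rfl | ⟨z, hz, rfl⟩
    · refine key _ _ (by omega) ?_
      rw [esize_gate]
      simp only [Gate.code, esize_pair]
      have := hs' 0 (by omega)
      have : esize (0 : ℕ) = 0 := rfl
      omega
    · refine key _ _ (by omega) ?_
      rw [esize_gate]
      simp only [Gate.code, esize_pair]
      have := hs' 0 (by omega)
      have : esize (0 : ℕ) = 0 := rfl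
      omega
    · exact key _ _ (num_lt hz.refOk).le (gate_esize_le (by omega) (by omega) hs' htt
        ((gate_all (fun q => hI.circ q) hz).imp fun a ha => num_lt ha))
  have hsz : esize (red t1 t2 I) = 2 * esize (total I) + esize (red t1 t2 I).gates + 1 :=
    esize_gcirc _
  have hge := length_le_esize (red t1 t2 I).gates
  refine ⟨?_, ?_, ?_⟩
  · rw [hlen, hlenI]
    refine htot.trans (Nat.mul_le_mul_right _ (by omega))
  · show total I ≤ esize (red t1 t2 I)
    rw [hsz]
    omega
  · show esize (red t1 t2 I) ≤ _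
    rw [hsz, hlenI]
    have h1 := hs (total I) le_rfl
    have h2 := esize_list_le hent
    rw [hlen] at h2
    have h3 : total I * (2 * (C3 * Lg) + 1) ≤ C1 * N * ((2 * C3 + 1) * Lg) := by
      refine Nat.mul_le_mul htot ?_
      nlinarith
    have h4 : C2 * Lg ≤ C2 * (N * Lg) := Nat.mul_le_mul_left _ (Nat.le_mul_of_pos_left _ (by omega))
    have h5 : 1 ≤ N * Lg := Nat.mul_pos (by omega) (by omega)
    calc 2 * esize (total I) + esize (red t1 t2 I).gates + 1
        ≤ 2 * (C2 * (N * Lg)) + C1 * N * ((2 * C3 + 1) * Lg) + N * Lg := by omega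
      _ = (2 * C2 + C1 * (2 * C3 + 1) + 1) * (N * Lg) := by ring
      _ ≤ (C1 + (2 * C2 + C1 * (2 * C3 + 1) + 1)) * (N * Lg) :=
          Nat.mul_le_mul_right _ (Nat.le_add_left _ _)

/-- The reduction with `δ = 0`. -/
theorem linear_size (ε : ℝ) (h0 : 0 < ε) (h1 : ε < 1 / 10) :
    ∃ (R : EoL → GCirc) (D : EoL × List ℚ → List Bool) (C : ℕ), PolyTime R ∧ PolyTime D ∧
      ∀ I : EoL, I.Valid → (R I).WF ∧ (R I).gates.length ≤ C * len I ∧
        len (R I) ≤ C * (len I * Nat.log 2 (len I)) ∧
        (∃ x, (R I).IsAssign x ∧ len x ≤ C * len (R I) ∧ (R I).violated ε x = 0) ∧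
        ∀ x, (R I).IsAssign x → (R I).violated ε x = 0 → I.IsSol (D (I, x)) := by
  obtain ⟨t1, ht1, ht1'⟩ := exists_rat_btwn (show 3 * ε < 3 * ε + (1 - 10 * ε) / 2 by linarith)
  obtain ⟨t2, ht2, ht2'⟩ := exists_rat_btwn (show t1 + 4 * ε < 1 - 3 * ε by linarith)
  obtain ⟨B, hB⟩ := exists_assign h0 (by linarith : ε < 1 / 8)
  obtain ⟨C, hC⟩ := red_size t1 t2
  have ht1r : 0 ≤ t1 ∧ t1 ≤ 1 := by
    constructor
    · have : (0 : ℝ) ≤ t1 := by linarith
      exact_mod_cast this
    · have : (t1 : ℝ) ≤ 1 := by linarith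
      exact_mod_cast this
  have ht2r : 0 ≤ t2 ∧ t2 ≤ 1 := by
    constructor
    · have : (0 : ℝ) ≤ t2 := by linarith
      exact_mod_cast this
    · have : (t2 : ℝ) ≤ 1 := by linarith
      exact_mod_cast this
  refine ⟨fun I => red t1 t2 (nrm I), decode, C + B,
    PT.exists_tm2 (PTred t1 t2 (PTnrm PT.id) (PBd_nrm (A := ∅) PT.id)),
    PT.exists_tm2 PTdecode, fun I hI => ?_⟩
  simp only [nrm_eq hI]
  obtain ⟨c1, c2, c3⟩ := hC I hI
  have hwf := red_wf ht1r ht2r (I := I) fun q => hI.circ q
  refine ⟨hwf, c1.trans (Nat.mul_le_mul_right _ (by omega)),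
    c3.trans (Nat.mul_le_mul_right _ (by omega)), ?_, ?_⟩
  · obtain ⟨x, hx1, hx2, hx3⟩ := hB _ hwf
    refine ⟨x, hx1, hx3.trans ?_, hx2⟩
    exact Nat.mul_le_mul (by omega) c2
  · intro x _ hv
    refine decode_sound (ε := ε) (by linarith) hI ?_
    refine Model.sol (model_of_sat h0 ht1 ht2 (by linarith) fun g hg => ?_) hI
    unfold GCirc.violated at hv
    rw [List.countP_eq_zero] at hv
    have := hv g hg
    simpa using this

end Vale.Agent.P330.LS
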