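import Vale.Agent.P330.LS.Status

/-!
Geometric nodes of a model: threshold counters, purification trees, samples.
-/

namespace Vale.Agent.P330.LS

variable {I : EoL} {st : Nd → Tri}

/-! ### Threshold counters -/

/-- Number of inputs of a counter that are surely true. -/
def loC (st : Nd → Tri) (e : Bool) (i : ℕ) : ℕ :=
  ∑ k ∈ Finset.range i, if st (Nd.mv e (k / 20) (k % 20 + 1)) = some true then 1 else 0

/-- Number of inputs of a counter that are not surely false. -/
def upC (st : Nd → Tri) (e : Bool) (i : ℕ) : ℕ :=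
  ∑ k ∈ Finset.range i, if st (Nd.mv e (k / 20) (k % 20 + 1)) ≠ some false then 1 else 0

theorem loC_le (st : Nd → Tri) (e : Bool) (i : ℕ) : loC st e i ≤ i := by
  refine (Finset.sum_le_card_nsmul _ _ 1 fun k _ => ?_).trans (by simp)
  split_ifs <;> omega

theorem loC_le_upC (st : Nd → Tri) (e : Bool) (i : ℕ) : loC st e i ≤ upC st e i := by
  refine Finset.sum_le_sum fun k _ => ?_
  split_ifs with h1 h2
  · exact le_rfl
  · rw [h1] at h2; simp at h2
  · omega
  · exact le_rfl

theorem Model.thrA_holds (h : Model I st) (e : Bool) {i k : ℕ} (hi : i ≤ BB) (hk : k ≤ BB) :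
    (PGate.and (Nd.mv e (i / 20) (i % 20 + 1)) (Nd.thr e i k)).Holds st (Nd.thrA e i k) :=
  h.geo ⟨.thrA, e, .R, i, k, 0⟩ ⟨hi, hk, Nat.zero_le _⟩

theorem Model.thr_zero (h : Model I st) (e : Bool) {i : ℕ} (hi : i ≤ BB) :
    st (Nd.thr e i 0) = some true :=
  h.geo ⟨.thr, e, .R, i, 0, 0⟩ ⟨hi, Nat.zero_le _, Nat.zero_le _⟩

theorem Model.thr_zero' (h : Model I st) (e : Bool) {k : ℕ} (hk : k + 1 ≤ BB) :
    st (Nd.thr e 0 (k + 1)) = some false := by
  have := h.geo ⟨.thr, e, .R, 0, k + 1, 0⟩ ⟨Nat.zero_le _, hk, Nat.zero_le _⟩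
  simp [geoGate, PGate.Holds] at this
  exact this

theorem Model.thr_succ (h : Model I st) (e : Bool) {i k : ℕ} (hi : i + 1 ≤ BB) (hk : k + 1 ≤ BB) :
    (PGate.or (Nd.thr e i (k + 1)) (Nd.thrA e i k)).Holds st (Nd.thr e (i + 1) (k + 1)) := by
  have := h.geo ⟨.thr, e, .R, i + 1, k + 1, 0⟩ ⟨hi, hk, Nat.zero_le _⟩
  simp [geoGate] at this
  exact this

theorem Model.thr_true (h : Model I st) (e : Bool) : ∀ (i k : ℕ), i ≤ BB → k ≤ loC st e i →
    st (Nd.thr e i k) = some true := by
  intro i
  induction i with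
  | zero =>
    intro k hi hk
    have : k = 0 := by simpa [loC] using hk
    subst this
    exact h.thr_zero e hi
  | succ i ih =>
    intro k hi hk
    rcases k with _ | k
    · exact h.thr_zero e hi
    · have hkB : k + 1 ≤ BB := (hk.trans (loC_le _ _ _)).trans hi
      have hs := h.thr_succ e hi hkB
      rw [loC, Finset.sum_range_succ] at hk
      by_cases hc : k + 1 ≤ loC st e i
      · exact hs.1 (ih _ (by omega) hc)
      · change ¬ (k + 1 ≤ loC st e i) at hc
        have e1 : ∑ k ∈ Finset.range i, (if st (Nd.mv e (k / 20) (k % 20 + 1)) = some true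
            then 1 else 0) = loC st e i := rfl
        rw [e1] at hk
        split_ifs at hk with hm
        · refine hs.2.1 ((h.thrA_holds e (by omega) (by omega)).1 hm (ih _ (by omega) (by omega)))
        · omega

theorem Model.thr_false (h : Model I st) (e : Bool) : ∀ (i k : ℕ), i ≤ BB → k ≤ BB →
    upC st e i < k → st (Nd.thr e i k) = some false := by
  intro i
  induction i with
  | zero =>
    intro k hi hk hlt
    obtain ⟨k, rfl⟩ : ∃ k', k = k' + 1 := ⟨k - 1, by omega⟩
    exact h.thr_zero' e hk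
  | succ i ih =>
    intro k hi hk hlt
    obtain ⟨k, rfl⟩ : ∃ k', k = k' + 1 := ⟨k - 1, by omega⟩
    have hs := h.thr_succ e hi hk
    rw [upC, Finset.sum_range_succ] at hlt
    have e1 : ∑ k ∈ Finset.range i, (if st (Nd.mv e (k / 20) (k % 20 + 1)) ≠ some false
        then 1 else 0) = upC st e i := rfl
    rw [e1] at hlt
    refine hs.2.2 (ih _ (by omega) hk (by omega)) ?_
    by_cases hm : st (Nd.mv e (i / 20) (i % 20 + 1)) = some false
    · exact (h.thrA_holds e (by omega) (by omega)).2.1 hm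
    · rw [if_pos hm] at hlt
      exact (h.thrA_holds e (by omega) (by omega)).2.2 (ih _ (by omega) (by omega) (by omega))

/-- Lower and upper counts. -/
def lo (st : Nd → Tri) (e : Bool) : ℕ := loC st e MM
def up (st : Nd → Tri) (e : Bool) : ℕ := upC st e MM

theorem lo_le_up (st : Nd → Tri) (e : Bool) : lo st e ≤ up st e := loC_le_upC _ _ _

theorem Model.bit_holds (h : Model I st) (e : Bool) {t : ℕ} (h1 : 1 ≤ t) (h2 : t ≤ 20) :
    (PGate.and (Nd.thr e MM (KK * t - 512)) (Nd.thr e MM (KK * t - 512))).Holds st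
      (Nd.bit e t) := by
  have := h.geo ⟨.bit, e, .R, t, 0, 0⟩ ⟨by unfold BB; change t ≤ _; omega, Nat.zero_le _,
    Nat.zero_le _⟩
  simp only [geoGate, show ¬ t = 0 by omega, show ¬ 21 ≤ t by omega, if_false] at this
  exact this

theorem Model.bit_true (h : Model I st) (e : Bool) {t : ℕ} (h1 : 1 ≤ t) (h2 : t ≤ 20)
    (hk : 1024 * t - 512 ≤ lo st e) : st (Nd.bit e t) = some true := by
  have := h.thr_true e MM (1024 * t - 512) (by unfold MM BB; omega) hk
  exact (h.bit_holds e h1 h2).1 this this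

theorem Model.bit_false (h : Model I st) (e : Bool) {t : ℕ} (h1 : 1 ≤ t) (h2 : t ≤ 20)
    (hk : up st e < 1024 * t - 512) : st (Nd.bit e t) = some false := by
  have := h.thr_false e MM (1024 * t - 512) (by unfold MM BB; omega) (by unfold BB; omega) hk
  exact (h.bit_holds e h1 h2).2.1 this

/-! ### Purification trees -/

theorem Model.tree_root (h : Model I st) (e : Bool) {t : ℕ} (h2 : t ≤ 20) :
    (PGate.and (Nd.bit e t) (Nd.bit e t)).Holds st (Nd.tree e t 1) := by
  have := h.geo ⟨.tree, e, .R, t, 1, 0⟩ ⟨by unfold BB; change t ≤ _; omega,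
    by unfold BB; change 1 ≤ _; omega, Nat.zero_le _⟩
  simp [geoGate] at this
  exact this

theorem gate_tree (I : EoL) (e : Bool) (t : ℕ) {k : ℕ} (hk : 1 ≤ k) :
    gate I (Nd.tree e t (2 * k)) = .lo (Nd.tree e t k) ∧
      gate I (Nd.tree e t (2 * k + 1)) = .hi (Nd.tree e t k) := by
  constructor
  · show geoGate ⟨.tree, e, .R, t, 2 * k, 0⟩ = _
    simp only [geoGate]
    rw [if_neg (by omega), if_pos (by omega)]
    congr 2; omega
  · show geoGate ⟨.tree, e, .R, t, 2 * k + 1, 0⟩ = _
    simp only [geoGate]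
    rw [if_neg (by omega), if_neg (by omega)]
    congr 2; omega

theorem dom_tree (I : EoL) (e : Bool) {t k : ℕ} (ht : t ≤ 20) (hk : k < 2048) :
    Dom I (Nd.tree e t k) :=
  ⟨by unfold BB; change t ≤ _; omega, by unfold BB; change k ≤ _; omega, Nat.zero_le _⟩

theorem Model.tree_dig (h : Model I st) (e : Bool) {t : ℕ} (h2 : t ≤ 20) {v : Bool}
    (hv : st (Nd.bit e t) = some v) : ∀ k, 1 ≤ k → k < 2048 → st (Nd.tree e t k) = some v := by
  intro k
  induction k using Nat.strong_induction_on with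
  | _ k ih =>
    intro hk1 hk2
    by_cases hk : k = 1
    · subst hk
      have hr := h.tree_root e h2
      cases v
      · exact hr.2.1 hv
      · exact hr.1 hv hv
    · rcases Nat.even_or_odd' k with ⟨k', rfl | rfl⟩
      · have hh := h.holds _ (dom_tree I e h2 hk2)
        rw [(gate_tree I e t (by omega)).1] at hh
        exact hh v (ih k' (by omega) (by omega) (by omega))
      · have hh := h.holds _ (dom_tree I e h2 hk2)
        rw [(gate_tree I e t (by omega)).2] at hh
        exact hh v (ih k' (by omega) (by omega) (by omega))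

theorem Model.tree_amb (h : Model I st) (e : Bool) {t : ℕ} (h2 : t ≤ 20) :
    ∀ d, d ≤ 10 → ∃ k0, ∀ k, 2 ^ d ≤ k → k < 2 ^ (d + 1) → k ≠ k0 → st (Nd.tree e t k) ≠ none := by
  intro d
  induction d with
  | zero =>
    intro _
    exact ⟨1, fun k h1 h2 h3 => by omega⟩
  | succ d ih =>
    intro hd
    obtain ⟨k0, hk0⟩ := ih (by omega)
    have hpow : 2 ^ (d + 2) ≤ 2048 := by
      calc 2 ^ (d + 2) ≤ 2 ^ 11 := Nat.pow_le_pow_right (by norm_num) (by omega)
        _ = 2048 := by norm_num
    by_cases hr : 2 ^ d ≤ k0 ∧ k0 < 2 ^ (d + 1)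
    · have h0 : 1 ≤ 2 ^ d := Nat.one_le_two_pow
      have e1 : 2 ^ (d + 1) = 2 * 2 ^ d := by ring
      have e2 : 2 ^ (d + 2) = 4 * 2 ^ d := by ring
      have hg := gate_tree I e t (k := k0) (by omega)
      have htw := h.twin _ _ _ (dom_tree I e h2 (by omega)) (dom_tree I e h2 (by omega))
        hg.1 hg.2
      have hother : ∀ k, 2 ^ (d + 1) ≤ k → k < 2 ^ (d + 2) → k ≠ 2 * k0 → k ≠ 2 * k0 + 1 →
          st (Nd.tree e t k) ≠ none := by
        intro k a1 a2 a3 a4
        rcases Nat.even_or_odd' k with ⟨k', rfl | rfl⟩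
        · have hne := hk0 k' (by omega) (by omega) (by omega)
          obtain ⟨v, hv⟩ := Option.ne_none_iff_exists'.1 hne
          have hh := h.holds _ (dom_tree I e h2 (show 2 * k' < 2048 by omega))
          rw [(gate_tree I e t (by omega)).1] at hh
          rw [hh v hv]; simp
        · have hne := hk0 k' (by omega) (by omega) (by omega)
          obtain ⟨v, hv⟩ := Option.ne_none_iff_exists'.1 hne
          have hh := h.holds _ (dom_tree I e h2 (show 2 * k' + 1 < 2048 by omega))
          rw [(gate_tree I e t (by omega)).2] at hh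
          rw [hh v hv]; simp
      rcases htw with htw | htw
      · refine ⟨2 * k0 + 1, fun k a1 a2 a3 => ?_⟩
        by_cases a4 : k = 2 * k0
        · rw [a4]; exact htw
        · exact hother k a1 a2 a4 a3
      · refine ⟨2 * k0, fun k a1 a2 a3 => ?_⟩
        by_cases a4 : k = 2 * k0 + 1
        · rw [a4]; exact htw
        · exact hother k a1 a2 a3 a4
    · refine ⟨0, fun k a1 a2 _ => ?_⟩
      have h0 : 1 ≤ 2 ^ d := Nat.one_le_two_pow
      have e1 : 2 ^ (d + 1) = 2 * 2 ^ d := by ring
      have e2 : 2 ^ (d + 1 + 1) = 4 * 2 ^ d := by ring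
      have e3 : 2 ^ (d + 2) = 4 * 2 ^ d := by ring
      rcases Nat.even_or_odd' k with ⟨k', rfl | rfl⟩
      · have hne := hk0 k' (by omega) (by omega) (by rintro rfl; exact hr ⟨by omega, by omega⟩)
        obtain ⟨v, hv⟩ := Option.ne_none_iff_exists'.1 hne
        have hh := h.holds _ (dom_tree I e h2 (show 2 * k' < 2048 by omega))
        rw [(gate_tree I e t (by omega)).1] at hh
        rw [hh v hv]; simp
      · have hne := hk0 k' (by omega) (by omega) (by rintro rfl; exact hr ⟨by omega, by omega⟩)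
        obtain ⟨v, hv⟩ := Option.ne_none_iff_exists'.1 hne
        have hh := h.holds _ (dom_tree I e h2 (show 2 * k' + 1 < 2048 by omega))
        rw [(gate_tree I e t (by omega)).2] at hh
        rw [hh v hv]; simp

/-- The leaves of the purification trees. -/
def leaf (e : Bool) (t j : ℕ) : Nd := Nd.tree e t (KK + j)

theorem Model.leaf_dig (h : Model I st) (e : Bool) {t j : ℕ} (h2 : t ≤ 20) (hj : j < 1024)
    {v : Bool} (hv : st (Nd.bit e t) = some v) : st (leaf e t j) = some v :=
  h.tree_dig e h2 hv _ (by unfold KK; omega) (by unfold KK; omega)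

theorem Model.leaf_amb (h : Model I st) (e : Bool) {t : ℕ} (h2 : t ≤ 20) :
    ∃ j0, ∀ j < 1024, j ≠ j0 → st (leaf e t j) ≠ none := by
  obtain ⟨k0, hk0⟩ := h.tree_amb e h2 10 le_rfl
  refine ⟨k0 - 1024, fun j hj hne => ?_⟩
  refine hk0 _ (by unfold KK; omega) (by unfold KK; omega) ?_
  unfold KK
  omega

/-! ### Samples -/

/-- All leaves of sample `j` on the axis `e` are digital. -/
def GoodAx (st : Nd → Tri) (e : Bool) (j : ℕ) : Prop :=
  ∀ t, 1 ≤ t → t ≤ 20 → st (leaf e t j) ≠ none

theorem BB_ge {a : ℕ} (h : a ≤ 30000) : a ≤ BB := h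

theorem Model.pre_zero (h : Model I st) (e : Bool) {j : ℕ} (hj : j < 1024) :
    st (Nd.pre e j 0) = some true :=
  h.geo ⟨.pre, e, .R, j, 0, 0⟩ ⟨BB_ge (by show j ≤ _; omega), Nat.zero_le _, Nat.zero_le _⟩

theorem Model.pre_succ (h : Model I st) (e : Bool) {j t : ℕ} (hj : j < 1024) (ht : t + 1 ≤ 20) :
    (PGate.and (Nd.pre e j t) (leaf e (t + 1) j)).Holds st (Nd.pre e j (t + 1)) := by
  have := h.geo ⟨.pre, e, .R, j, t + 1, 0⟩ ⟨BB_ge (by show j ≤ _; omega),
    BB_ge (by show t + 1 ≤ _; omega), Nat.zero_le _⟩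
  simp [geoGate, ht] at this
  exact this

theorem Model.pre_last (h : Model I st) (e : Bool) {j t : ℕ} (hj : j < 1024) (ht : 21 ≤ t)
    (ht' : t ≤ 30000) : st (Nd.pre e j t) = some false := by
  have := h.geo ⟨.pre, e, .R, j, t, 0⟩ ⟨BB_ge (by show j ≤ _; omega),
    BB_ge (by show t ≤ _; omega), Nat.zero_le _⟩
  simp only [geoGate, show ¬ t = 0 by omega, show ¬ t ≤ 20 by omega, if_false, PGate.Holds]
    at this
  exact this

/-- The sample `j` has position `x` on the axis `e`. -/
structure Pos (st : Nd → Tri) (e : Bool) (j x : ℕ) : Prop where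
  le : x ≤ 20
  pre : ∀ t ≤ 30000, st (Nd.pre e j t) = some (decide (t ≤ x))
  lt : ∀ t, 1 ≤ t → t ≤ x → st (leaf e t j) = some true
  eq : x < 20 → st (leaf e (x + 1) j) = some false

theorem Model.pos (h : Model I st) {e : Bool} {j : ℕ} (hj : j < 1024) (hg : GoodAx st e j) :
    ∃ x, Pos st e j x := by
  have key : ∀ m, m ≤ 20 → ∃ x, x ≤ m ∧ (∀ t ≤ m, st (Nd.pre e j t) = some (decide (t ≤ x))) ∧
      (∀ t, 1 ≤ t → t ≤ x → st (leaf e t j) = some true) ∧
      (x < m → st (leaf e (x + 1) j) = some false) := by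
    intro m
    induction m with
    | zero =>
      intro _
      refine ⟨0, le_rfl, fun t ht => ?_, fun t h1 h2 => by omega, fun h => by omega⟩
      obtain rfl : t = 0 := by omega
      simpa using h.pre_zero e hj
    | succ m ih =>
      intro hm
      obtain ⟨x, h1, h2, h3, h4⟩ := ih (by omega)
      have hs := h.pre_succ e hj (t := m) hm
      have hp := h2 m le_rfl
      obtain ⟨v, hv⟩ := Option.ne_none_iff_exists'.1 (hg (m + 1) (by omega) hm)
      by_cases hx : x = m
      · subst hx
        simp only [le_refl, decide_true] at hp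
        cases v
        · refine ⟨x, by omega, fun t ht => ?_, h3, fun _ => hv⟩
          rcases Nat.lt_or_ge t (x + 1) with h5 | h5
          · exact h2 t (by omega)
          · obtain rfl : t = x + 1 := by omega
            rw [hs.2.2 hv]; simp
        · refine ⟨x + 1, le_rfl, fun t ht => ?_, fun t h5 h6 => ?_, fun h => by omega⟩
          · rcases Nat.lt_or_ge t (x + 1) with h5 | h5
            · rw [h2 t (by omega)]; congr 1; simp; omega
            · obtain rfl : t = x + 1 := by omega
              rw [hs.1 hp hv]; simp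
          · rcases Nat.lt_or_ge t (x + 1) with h7 | h7
            · exact h3 t h5 (by omega)
            · obtain rfl : t = x + 1 := by omega
              exact hv
      · have hp' : st (Nd.pre e j m) = some false := by
          rw [hp]; congr 1; simp; omega
        refine ⟨x, by omega, fun t ht => ?_, h3, fun _ => h4 (by omega)⟩
        rcases Nat.lt_or_ge t (m + 1) with h5 | h5
        · exact h2 t (by omega)
        · obtain rfl : t = m + 1 := by omega
          rw [hs.2.1 hp']; congr 1; symm; simp; omega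
  obtain ⟨x, h1, h2, h3, h4⟩ := key 20 le_rfl
  refine ⟨x, h1, fun t ht => ?_, h3, h4⟩
  rcases Nat.lt_or_ge t 21 with h5 | h5
  · exact h2 t (by omega)
  · rw [h.pre_last e hj h5 ht]; congr 1; symm; simp; omega

theorem Pos.ge_of_bit (h : Model I st) {e : Bool} {j x : ℕ} (hj : j < 1024) (hp : Pos st e j x)
    {p : ℕ} (hp20 : p ≤ 20) (hb : ∀ t, 1 ≤ t → t ≤ p → st (Nd.bit e t) = some true) : p ≤ x := by
  by_contra hc
  have h1 := hp.eq (by omega)
  rw [h.leaf_dig e (by omega) hj (hb (x + 1) (by omega) (by omega))] at h1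
  simp at h1

theorem Pos.lt_of_bit (h : Model I st) {e : Bool} {j x : ℕ} (hj : j < 1024) (hp : Pos st e j x)
    {p : ℕ} (hp1 : 1 ≤ p) (hp20 : p ≤ 20) (hb : st (Nd.bit e p) = some false) : x < p := by
  by_contra hc
  have h1 := hp.lt p hp1 (by omega)
  rw [h.leaf_dig e hp20 hj hb] at h1
  simp at h1

theorem Model.col_val (h : Model I st) {e : Bool} {j x : ℕ} (hj : j < 1024) (hp : Pos st e j x)
    {t : ℕ} (ht : t ≤ 20) : st (Nd.col e j t) = some (decide (t = x)) := by
  have hn : ∀ t, t ≤ 21 → st (Nd.npre e j t) = some (!(decide (t ≤ x))) := by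
    intro t ht
    have := h.geo ⟨.npre, e, .R, j, t, 0⟩ ⟨BB_ge (by show j ≤ _; omega),
      BB_ge (by show t ≤ _; omega), Nat.zero_le _⟩
    exact this _ (hp.pre t (by omega))
  have hc : (PGate.and (Nd.pre e j t) (Nd.npre e j (t + 1))).Holds st (Nd.col e j t) :=
    h.geo ⟨.col, e, .R, j, t, 0⟩ ⟨BB_ge (by show j ≤ _; omega),
      BB_ge (by show t ≤ _; omega), Nat.zero_le _⟩
  have h1 := hp.pre t (by omega)
  have h2 := hn (t + 1) (by omega)
  by_cases hx : t = x
  · rw [decide_eq_true hx]
    refine hc.1 ?_ ?_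
    · rw [h1, decide_eq_true (by omega)]
    · rw [h2, decide_eq_false (by omega)]; rfl
  · rw [decide_eq_false hx]
    by_cases hx' : t ≤ x
    · refine hc.2.2 ?_
      rw [h2, decide_eq_true (by omega)]; rfl
    · refine hc.2.1 ?_
      rw [h1, decide_eq_false hx']

theorem Model.cell_val (h : Model I st) {j X Y : ℕ} (hj : j < 1024) (hX : Pos st false j X)
    (hY : Pos st true j Y) {x y : ℕ} (hx : x ≤ 20) (hy : y ≤ 20) :
    st (Nd.cell j x y) = some (decide (x = X ∧ y = Y)) := by
  have hc : (PGate.and (Nd.col false j x) (Nd.col true j y)).Holds st (Nd.cell j x y) :=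
    h.geo ⟨.cell, false, .R, j, x, y⟩ ⟨BB_ge (by show j ≤ _; omega),
      BB_ge (by show x ≤ _; omega), BB_ge (by show y ≤ _; omega)⟩
  have h1 := h.col_val hj hX hx
  have h2 := h.col_val hj hY hy
  by_cases e1 : x = X
  · by_cases e2 : y = Y
    · rw [decide_eq_true ⟨e1, e2⟩]
      exact hc.1 (by rw [h1, decide_eq_true e1]) (by rw [h2, decide_eq_true e2])
    · rw [decide_eq_false fun hh => e2 hh.2]
      exact hc.2.2 (by rw [h2, decide_eq_false e2])
  · rw [decide_eq_false fun hh => e1 hh.1]
    exact hc.2.1 (by rw [h1, decide_eq_false e1])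

theorem Model.dor_val (h : Model I st) {j X Y : ℕ} (hj : j < 1024) (hX : Pos st false j X)
    (hY : Pos st true j Y) {d : Dir} {v : Bool} (hs : st (Nd.sel X Y d) = some v) :
    ∀ m, m ≤ 441 → st (Nd.dor j d m) = some (v && decide (21 * X + Y < m)) := by
  intro m
  induction m with
  | zero =>
    intro _
    have : st (Nd.dor j d 0) = some false :=
      h.geo ⟨.dor, false, d, j, 0, 0⟩ ⟨BB_ge (by show j ≤ _; omega), Nat.zero_le _, Nat.zero_le _⟩
    rw [this]; simp
  | succ m ih =>
    intro hm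
    have hgate : (PGate.or (Nd.dor j d m) (Nd.term j (m / 21) (m % 21) d)).Holds st
        (Nd.dor j d (m + 1)) := by
      have := h.geo ⟨.dor, false, d, j, m + 1, 0⟩ ⟨BB_ge (by show j ≤ _; omega),
        BB_ge (by show m + 1 ≤ _; omega), Nat.zero_le _⟩
      simp [geoGate] at this
      exact this
    have hterm : (PGate.and (Nd.cell j (m / 21) (m % 21)) (Nd.sel (m / 21) (m % 21) d)).Holds st
        (Nd.term j (m / 21) (m % 21) d) :=
      h.geo ⟨.term, false, d, j, m / 21, m % 21⟩ ⟨BB_ge (by show j ≤ _; omega),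
        BB_ge (by show m / 21 ≤ _; omega), BB_ge (by show m % 21 ≤ _; omega)⟩
    have hcell := h.cell_val hj hX hY (x := m / 21) (y := m % 21) (by omega) (by omega)
    have hi := ih (by omega)
    have hX20 := hX.le
    have hY20 := hY.le
    by_cases hc : m / 21 = X ∧ m % 21 = Y
    · rw [decide_eq_true hc] at hcell
      have hlt : 21 * X + Y = m := by omega
      rw [decide_eq_false (by omega)] at hi
      rw [decide_eq_true (by omega : 21 * X + Y < m + 1)]
      rw [hc.1, hc.2] at hterm hcell hgate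
      cases v
      · exact hgate.2.2 (by rw [hi]; rfl) (hterm.2.2 hs)
      · exact hgate.2.1 (hterm.1 hcell hs)
    · rw [decide_eq_false hc] at hcell
      have ht := hterm.2.1 hcell
      have e1 : decide (21 * X + Y < m + 1) = decide (21 * X + Y < m) := by
        apply decide_eq_decide.2
        constructor
        · intro h5
          rcases Nat.lt_or_ge (21 * X + Y) m with h6 | h6
          · exact h6
          · exact absurd ⟨by omega, by omega⟩ hc
        · intro h5; omega
      rw [e1]
      rcases e2 : (v && decide (21 * X + Y < m)) with _ | _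
      · rw [e2] at hi
        exact hgate.2.2 hi ht
      · rw [e2] at hi
        exact hgate.1 hi

theorem Model.dir_val (h : Model I st) {j X Y : ℕ} (hj : j < 1024) (hX : Pos st false j X)
    (hY : Pos st true j Y) {d : Dir} {v : Bool} (hs : st (Nd.sel X Y d) = some v) :
    st (Nd.dor j d 441) = some v := by
  have hX20 := hX.le
  have hY20 := hY.le
  rw [h.dor_val hj hX hY hs 441 le_rfl, decide_eq_true (by omega), Bool.and_true]

/-! ### Moved samples -/

theorem Model.mv_holds (h : Model I st) (e : Bool) {j t : ℕ} (hj : j < 1024) (ht : t ≤ 20) :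
    (PGate.or (Nd.pre e j (t + 1)) (Nd.mvC e j t)).Holds st (Nd.mv e j t) ∧
    (PGate.or (Nd.mvA e j t) (Nd.mvB e j t)).Holds st (Nd.mvC e j t) ∧
    (PGate.and (Nd.pre e j t) (Nd.ndir j (minusD e))).Holds st (Nd.mvA e j t) ∧
    (PGate.and (Nd.pre e j (t - 1)) (Nd.dor j (plusD e) 441)).Holds st (Nd.mvB e j t) := by
  have hj' : j ≤ BB := BB_ge (by omega)
  have ht' : t ≤ BB := BB_ge (by omega)
  exact ⟨h.geo ⟨.mv, e, .R, j, t, 0⟩ ⟨hj', ht', Nat.zero_le _⟩,
    h.geo ⟨.mvC, e, .R, j, t, 0⟩ ⟨hj', ht', Nat.zero_le _⟩,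
    h.geo ⟨.mvA, e, .R, j, t, 0⟩ ⟨hj', ht', Nat.zero_le _⟩,
    h.geo ⟨.mvB, e, .R, j, t, 0⟩ ⟨hj', ht', Nat.zero_le _⟩⟩

theorem Model.mv_low (h : Model I st) {e : Bool} {j x t : ℕ} (hj : j < 1024)
    (hp : Pos st e j x) (ht : t + 1 ≤ x) : st (Nd.mv e j t) = some true := by
  have hx := hp.le
  refine (h.mv_holds e hj (by omega)).1.1 ?_
  rw [hp.pre _ (by omega), decide_eq_true ht]

theorem Model.mv_high (h : Model I st) {e : Bool} {j x t : ℕ} (hj : j < 1024)
    (hp : Pos st e j x) (ht : x + 2 ≤ t) (ht' : t ≤ 20) : st (Nd.mv e j t) = some false := by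
  obtain ⟨g1, g2, g3, g4⟩ := h.mv_holds e hj ht'
  refine g1.2.2 ?_ (g2.2.2 (g3.2.1 ?_) (g4.2.1 ?_))
  · rw [hp.pre _ (by omega), decide_eq_false (by omega)]
  · rw [hp.pre _ (by omega), decide_eq_false (by omega)]
  · rw [hp.pre _ (by omega), decide_eq_false (by omega)]

/-- The new position of a sample. -/
def newPos (e : Bool) (x : ℕ) (d : Dir) : ℕ :=
  if d = plusD e then x + 1 else if d = minusD e then x - 1 else x

theorem plus_ne_minus (e : Bool) : plusD e ≠ minusD e := by cases e <;> simp [plusD, minusD]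

theorem Model.mv_val (h : Model I st) {e : Bool} {j x t : ℕ} {d : Dir} (hj : j < 1024)
    (hp : Pos st e j x) (hd : ∀ d', st (Nd.dor j d' 441) = some (decide (d = d')))
    (ht1 : 1 ≤ t) (ht : t ≤ 20) :
    st (Nd.mv e j t) = some (decide (t ≤ newPos e x d)) := by
  have hx := hp.le
  obtain ⟨g1, g2, g3, g4⟩ := h.mv_holds e hj ht
  have hplus := hd (plusD e)
  have hn : st (Nd.ndir j (minusD e)) = some (!(decide (d = minusD e))) := by
    have := h.geo ⟨.ndir, false, minusD e, j, 0, 0⟩ ⟨BB_ge (by show j ≤ _; omega), Nat.zero_le _,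
      Nat.zero_le _⟩
    exact this _ (hd (minusD e))
  rcases Nat.lt_or_ge t x with h1 | h1
  · rw [h.mv_low hj hp h1]
    congr 1; symm
    rw [decide_eq_true_iff]
    unfold newPos
    split_ifs <;> omega
  rcases Nat.lt_or_ge t (x + 2) with h2 | h2
  swap
  · rw [h.mv_high hj hp h2 ht]
    congr 1; symm
    rw [decide_eq_false_iff_not]
    unfold newPos
    split_ifs <;> omega
  have hpt1 : st (Nd.pre e j (t + 1)) = some false := by
    rw [hp.pre _ (by omega), decide_eq_false (by omega)]
  have hptm : st (Nd.pre e j (t - 1)) = some true := by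
    rw [hp.pre _ (by omega), decide_eq_true (by omega)]
  have hB : st (Nd.mvB e j t) = some (decide (d = plusD e)) := by
    rcases e1 : decide (d = plusD e) with _ | _
    · rw [e1] at hplus; exact g4.2.2 hplus
    · rw [e1] at hplus; exact g4.1 hptm hplus
  rcases Nat.lt_or_ge t (x + 1) with h3 | h3
  · obtain rfl : t = x := by omega
    have hpt : st (Nd.pre e j t) = some true := by
      rw [hp.pre _ (by omega), decide_eq_true le_rfl]
    have hA : st (Nd.mvA e j t) = some (!(decide (d = minusD e))) := by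
      rcases e1 : (!(decide (d = minusD e))) with _ | _
      · rw [e1] at hn; exact g3.2.2 hn
      · rw [e1] at hn; exact g3.1 hpt hn
    unfold newPos
    by_cases c1 : d = plusD e
    · rw [if_pos c1, decide_eq_true (by omega)]
      rw [decide_eq_true c1] at hB
      exact g1.2.1 (g2.2.1 hB)
    · rw [if_neg c1]
      rw [decide_eq_false c1] at hB
      by_cases c2 : d = minusD e
      · rw [if_pos c2, decide_eq_false (by omega)]
        rw [decide_eq_true c2] at hA
        exact g1.2.2 hpt1 (g2.2.2 hA hB)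
      · rw [if_neg c2, decide_eq_true le_rfl]
        rw [decide_eq_false c2] at hA
        exact g1.2.1 (g2.1 hA)
  · obtain rfl : t = x + 1 := by omega
    have hpt : st (Nd.pre e j (x + 1)) = some false := by
      rw [hp.pre _ (by omega), decide_eq_false (by omega)]
    have hA : st (Nd.mvA e j (x + 1)) = some false := g3.2.1 hpt
    unfold newPos
    by_cases c1 : d = plusD e
    · rw [if_pos c1, decide_eq_true (by omega)]
      rw [decide_eq_true c1] at hB
      exact g1.2.1 (g2.2.1 hB)
    · rw [decide_eq_false c1] at hB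
      rw [if_neg c1, decide_eq_false (by split_ifs <;> omega)]
      exact g1.2.2 hpt1 (g2.2.2 hA hB)

end Vale.Agent.P330.LS
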