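import Vale.Agent.P330.LS.Count

/-!
Every model of the pure circuit stores a solution.
-/

namespace Vale.Agent.P330.LS

variable {I : EoL} {st : Nd → Tri}

/-! ### Arithmetic of one axis -/

theorem axis_aux (G : Finset ℕ) (hG : 1022 ≤ G.card) (hG' : G.card ≤ 1024) (X : ℕ → ℕ)
    (pl mi : ℕ → Prop) [DecidablePred pl] [DecidablePred mi] (np : ℕ → ℕ) (p lo up : ℕ) (B : Prop)
    (hp : p ≤ 20) (hX : ∀ j ∈ G, X j = p ∨ X j = p + 1) (hB : B → ∀ j ∈ G, X j = p)
    (h20 : p = 20 → B) (h1 : p < 20 → lo < 1024 * p + 512) (h2 : 1 ≤ p → 1024 * p ≤ lo + 512)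
    (h3 : ¬ B → 1024 * p + 512 ≤ up) (hlu : lo ≤ up) (hlo : ∑ j ∈ G, np j ≤ lo)
    (hup : up ≤ ∑ j ∈ G, np j + 40)
    (hnp : ∀ j ∈ G, np j + (if mi j then 1 else 0) = X j + (if pl j then 1 else 0))
    (hpl : p = 20 → ∀ j ∈ G, ¬ pl j) (hmi : p = 0 → B → ∀ j ∈ G, ¬ mi j)
    (hs : (∀ j ∈ G, ¬ pl j) ∨ (∀ j ∈ G, ¬ mi j)) :
    ∃ ξ, (G.filter fun j => X j ≠ ξ).card + (G.filter fun j => pl j ∨ mi j).card ≤ 552 := by
  have hsum : ∑ j ∈ G, np j + (G.filter mi).card = ∑ j ∈ G, X j + (G.filter pl).card := by
    rw [Finset.card_filter, Finset.card_filter, ← Finset.sum_add_distrib,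
      ← Finset.sum_add_distrib]
    exact Finset.sum_congr rfl hnp
  have hXs : ∑ j ∈ G, X j = p * G.card + (G.filter fun j => X j ≠ p).card := by
    rw [Finset.card_filter, mul_comm, ← smul_eq_mul, ← Finset.sum_const,
      ← Finset.sum_add_distrib]
    refine Finset.sum_congr rfl fun j hj => ?_
    rcases hX j hj with h | h
    · simp [h]
    · simp [h]
  obtain ⟨s, hs1, hs2⟩ : ∃ s, G.card + s = 1024 ∧ s ≤ 2 := ⟨1024 - G.card, by omega, by omega⟩
  have hps : p * s ≤ 40 := (Nat.mul_le_mul hp hs2).trans (by norm_num)
  have hpG : p * G.card + p * s = 1024 * p := by rw [← mul_add, hs1, mul_comm]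
  set a := (G.filter fun j => X j ≠ p).card with ha
  have haG : a ≤ G.card := Finset.card_filter_le _ _
  have ha0 : B → a = 0 := fun hb => by
    rw [ha, Finset.card_eq_zero, Finset.filter_eq_empty_iff]
    intro j hj
    simpa using hB hb j hj
  rcases hs with hs | hs
  · have e1 : (G.filter pl).card = 0 := by
      rw [Finset.card_eq_zero, Finset.filter_eq_empty_iff]; exact fun j hj => hs j hj
    have e2 : (G.filter fun j => pl j ∨ mi j) = G.filter mi := by
      refine Finset.filter_congr fun j hj => ?_
      simp [hs j hj]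
    rw [e2]
    by_cases hb : B
    · refine ⟨p, ?_⟩
      have := ha0 hb
      by_cases hp0 : p = 0
      · have e3 : (G.filter mi).card = 0 := by
          rw [Finset.card_eq_zero, Finset.filter_eq_empty_iff]; exact fun j hj => hmi hp0 hb j hj
        omega
      · have := h2 (by omega)
        omega
    · refine ⟨p + 1, ?_⟩
      have := h3 hb
      have e4 : (G.filter fun j => X j ≠ p + 1).card + a = G.card := by
        have e5 : (G.filter fun j => X j ≠ p + 1) = G.filter fun j => ¬ (X j ≠ p) := by
          refine Finset.filter_congr fun j hj => ?_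
          rcases hX j hj with h | h <;> simp [h]
        rw [e5, ha, add_comm]
        exact Finset.card_filter_add_card_filter_not _
      omega
  · have e1 : (G.filter mi).card = 0 := by
      rw [Finset.card_eq_zero, Finset.filter_eq_empty_iff]; exact fun j hj => hs j hj
    have e2 : (G.filter fun j => pl j ∨ mi j) = G.filter pl := by
      refine Finset.filter_congr fun j hj => ?_
      simp [hs j hj]
    rw [e2]
    refine ⟨p, ?_⟩
    by_cases hp20 : p = 20
    · have e3 : (G.filter pl).card = 0 := by
        rw [Finset.card_eq_zero, Finset.filter_eq_empty_iff]; exact fun j hj => hpl hp20 j hj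
      have := ha0 (h20 hp20)
      omega
    · have := h1 (by omega)
      omega

/-! ### Positions and directions of the samples -/

/-- Good samples. -/
def Good (st : Nd → Tri) (j : ℕ) : Prop := GoodAx st false j ∧ GoodAx st true j

open Classical in
/-- Position of a sample. -/
noncomputable def posOf (st : Nd → Tri) (e : Bool) (j : ℕ) : ℕ :=
  if h : ∃ x, Pos st e j x then h.choose else 0

theorem Model.posOf_spec (h : Model I st) {e : Bool} {j : ℕ} (hj : j < 1024)
    (hg : GoodAx st e j) : Pos st e j (posOf st e j) := by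
  have := h.pos hj hg
  unfold posOf
  rw [dif_pos this]
  exact this.choose_spec

/-- Direction of a sample. -/
noncomputable def dirOf (st : Nd → Tri) (j : ℕ) : Dir :=
  dir (stat st) (posOf st false j) (posOf st true j)

theorem Win.pos_mem (h : Model I st) {e : Bool} {p w : ℕ} (hw : Win st e p w) {j x : ℕ}
    (hj : j < 1024) (hx : Pos st e j x) : p ≤ x ∧ x ≤ p + w := by
  refine ⟨hx.ge_of_bit h hj hw.le hw.tr, ?_⟩
  by_cases hc : p + w + 1 ≤ 20
  · have := hx.lt_of_bit h hj (by omega) hc (hw.fa _ le_rfl hc)
    omega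
  · have := hx.le
    omega

theorem Model.dirOf_spec (h : Model I st) (hI : I.Valid) {j : ℕ} (hj : j < 1024)
    (hg : Good st j) (d : Dir) : st (Nd.dor j d 441) = some (decide (dirOf st j = d)) := by
  have hX := h.posOf_spec hj hg.1
  have hY := h.posOf_spec hj hg.2
  have wx := h.win3 false
  have wy := h.win3 true
  obtain ⟨a1, a2⟩ := wx.pos_mem h hj hX
  obtain ⟨b1, b2⟩ := wy.pos_mem h hj hY
  exact h.dir_val hj hX hY (h.sel_dig hI wx wy hX.le hY.le a1 a2 b1 b2 d)

theorem Model.newPos_le (h : Model I st) (e : Bool) {j : ℕ} (hj : j < 1024)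
    (hg : Good st j) : newPos e (posOf st e j) (dirOf st j) ≤ 20 := by
  have hX := (h.posOf_spec hj hg.1).le
  have hY := (h.posOf_spec hj hg.2).le
  have hle : posOf st e j ≤ 20 := by cases e <;> assumption
  unfold newPos
  by_cases c1 : dirOf st j = plusD e
  · rw [if_pos c1]
    have hne : posOf st e j ≠ 20 := by
      intro hc
      unfold dirOf at c1
      cases e
      · rw [hc] at c1
        exact (bd (stat st) hY).2.1 c1
      · rw [hc] at c1
        exact (bd (stat st) hX).2.2.2 c1
    omega
  · rw [if_neg c1]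
    split_ifs <;> omega

open Classical in
/-- The set of good samples. -/
noncomputable def Gd (st : Nd → Tri) : Finset ℕ := (Finset.range 1024).filter fun j => Good st j

theorem mem_Gd {j : ℕ} : j ∈ Gd st ↔ j < 1024 ∧ Good st j := by
  classical
  unfold Gd
  rw [Finset.mem_filter, Finset.mem_range]

theorem Gd_card_le : (Gd st).card ≤ 1024 := by
  classical
  exact (Finset.card_filter_le _ _).trans (by simp)

theorem Model.Gd_card (h : Model I st) :
    1024 ≤ (Gd st).card + ((amb st false).card + (amb st true).card) := by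
  classical
  have h1 := h.bad_le false
  have h2 := h.bad_le true
  have h3 := Finset.card_filter_add_card_filter_not (s := Finset.range 1024)
    (fun j => Good st j)
  rw [Finset.card_range] at h3
  have h4 : ((Finset.range 1024).filter fun j => ¬ Good st j) ⊆
      ((Finset.range 1024).filter fun j => ¬ GoodAx st false j) ∪
        ((Finset.range 1024).filter fun j => ¬ GoodAx st true j) := by
    intro j hj
    rw [Finset.mem_filter] at hj
    rw [Finset.mem_union, Finset.mem_filter, Finset.mem_filter]
    rcases not_and_or.1 hj.2 with h7 | h7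
    · exact Or.inl ⟨hj.1, h7⟩
    · exact Or.inr ⟨hj.1, h7⟩
  have h5 := (Finset.card_le_card h4).trans (Finset.card_union_le _ _)
  have h6 : (Gd st).card = ((Finset.range 1024).filter fun j => Good st j).card := by
    unfold Gd; congr
  omega

theorem Model.sums (h : Model I st) (hI : I.Valid) (e : Bool) :
    ∑ j ∈ Gd st, newPos e (posOf st e j) (dirOf st j) ≤ lo st e ∧
    up st e ≤ ∑ j ∈ Gd st, newPos e (posOf st e j) (dirOf st j) + 20 * (1024 - (Gd st).card) := by
  classical
  have hrow : ∀ j ∈ Gd st, rowLo st e j = newPos e (posOf st e j) (dirOf st j) ∧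
      rowUp st e j = newPos e (posOf st e j) (dirOf st j) := by
    intro j hj
    obtain ⟨hj1, hj2⟩ := mem_Gd.1 hj
    have hp : Pos st e j (posOf st e j) := by
      cases e
      · exact h.posOf_spec hj1 hj2.1
      · exact h.posOf_spec hj1 hj2.2
    exact h.row_val hj1 hp (h.dirOf_spec hI hj1 hj2) (h.newPos_le e hj1 hj2)
  have hsub : Gd st ⊆ Finset.range 1024 := by
    unfold Gd
    exact Finset.filter_subset _ _
  constructor
  · rw [lo_eq]
    refine le_trans (le_of_eq (Finset.sum_congr rfl fun j hj => (hrow j hj).1.symm)) ?_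
    exact Finset.sum_le_sum_of_subset hsub
  · rw [up_eq, ← Finset.sum_sdiff hsub, add_comm]
    refine add_le_add (le_of_eq (Finset.sum_congr rfl fun j hj => (hrow j hj).2)) ?_
    refine (Finset.sum_le_card_nsmul _ _ 20 fun j _ => rowUp_le st e j).trans ?_
    rw [Finset.card_sdiff_of_subset hsub, Finset.card_range, smul_eq_mul, mul_comm]

theorem Model.win1 (h : Model I st) (hI : I.Valid) (e : Bool) : Win st e (pp st e) 1 := by
  refine ⟨by unfold pp; omega, fun t h1 h2 => h.win_tr e h1 h2, fun t h1 h2 => ?_⟩
  have hc := h.Gd_card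
  have h3 := (h.win3 false).amb_le
  have h4 := (h.win3 true).amb_le
  have h5 := h.sums hI e
  refine h.bit_false e (by omega) h2 ?_
  unfold pp at h1
  omega

theorem Model.Gd_card1 (h : Model I st) (hI : I.Valid) : 1022 ≤ (Gd st).card := by
  have hc := h.Gd_card
  have h3 := (h.win1 hI false).amb_le
  have h4 := (h.win1 hI true).amb_le
  omega

/-! ### The block of the samples -/

theorem Model.compat (h : Model I st) (hI : I.Valid) :
    LS.compat (stat st) (min (pp st false) 19) (min (pp st true) 19) = true ∨ Sol I st := by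
  by_cases hsol : Sol I st
  · exact Or.inr hsol
  left
  have wx := h.win1 hI false
  have wy := h.win1 hI true
  set px := pp st false with hpx
  set py := pp st true with hpy
  have hxt : ∀ t, 1 ≤ t → t ≤ px → st (Nd.bit false t) = some true := wx.tr
  have hxf : ∀ t, px + 2 ≤ t → t ≤ 20 → st (Nd.bit false t) = some false :=
    fun t a b => wx.fa t (by omega) b
  have hyt : ∀ t, 1 ≤ t → t ≤ py → st (Nd.bit true t) = some true := wy.tr
  have hyf : ∀ t, py + 2 ≤ t → t ≤ 20 → st (Nd.bit true t) = some false :=
    fun t a b => wy.fa t (by omega) b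
  unfold LS.compat
  simp only [Bool.and_eq_true, Bool.or_eq_true, Bool.not_eq_true', beq_iff_eq,
    Bool.and_eq_false_iff, decide_eq_false_iff_not]
  refine ⟨⟨⟨⟨⟨?_, ?_⟩, ?_⟩, ?_⟩, ?_⟩, ?_⟩
  · by_cases c : st (Nd.g0 .va) = some true
    · right; simp [stat, c]
    · left; simp [stat, c]
  · by_cases c1 : 13 ≤ min px 19
    · by_cases c2 : 13 ≤ min py 19
      · right
        have h1 : st Nd.u1 = some true := hxt 8 (by omega) (by omega)
        have h2 : st Nd.u2 = some true := hxt 13 (by omega) (by omega)
        have h3 : st Nd.w2 = some true := hyt 13 (by omega) (by omega)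
        rcases h.cornerTR hI (h.nrst_true (Or.inr (Or.inl h2))) h1 h2 h3 with ⟨b, hb1, hb2⟩ | hs
        · rw [stat_va hb1, stat_v2 hb2]
        · exact absurd hs hsol
      · left; right; exact c2
    · left; left; exact c1
  · by_cases c1 : min px 19 + 1 ≤ 7
    · by_cases c2 : 13 ≤ min py 19
      · right
        have h1 : st Nd.u1 = some false := hxf 8 (by omega) (by omega)
        have h2 : st Nd.u2 = some false := hxf 13 (by omega) (by omega)
        have h3 : st Nd.w2 = some true := hyt 13 (by omega) (by omega)
        rcases h.cornerTL hI (h.nrst_true (Or.inl h1)) h1 h2 h3 with ⟨b, hb1, hb2⟩ | hs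
        · rw [stat_v2 hb1, stat_vb hb2]
        · exact absurd hs hsol
      · left; right; exact c2
    · left; left; exact c1
  · by_cases c1 : min px 19 + 1 ≤ 7
    · by_cases c2 : min py 19 + 1 ≤ 7
      · right
        have h1 : st Nd.u1 = some false := hxf 8 (by omega) (by omega)
        have h2 : st Nd.u2 = some false := hxf 13 (by omega) (by omega)
        have h3 : st Nd.w2 = some false := hyf 13 (by omega) (by omega)
        obtain ⟨b, hb1, hb2⟩ := h.cornerBL (h.nrst_true (Or.inl h1)) h1 h2 h3
        rw [stat_vb hb1, stat_v4 hb2]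
      · left; right; exact c2
    · left; left; exact c1
  · by_cases c1 : 13 ≤ min px 19
    · by_cases c2 : min py 19 + 1 ≤ 7
      · right
        have h1 : st Nd.u1 = some true := hxt 8 (by omega) (by omega)
        have h2 : st Nd.u2 = some true := hxt 13 (by omega) (by omega)
        have h3 : st Nd.w2 = some false := hyf 13 (by omega) (by omega)
        obtain ⟨a, b, hb1, hb2, hb3⟩ :=
          h.cornerBR (h.nrst_true (Or.inr (Or.inl h2))) h1 h2 h3
        have e1 : (stat st).ha = (b && a) := by
          simp only [stat, hb1, hb2]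
          cases a <;> cases b <;> simp
        rw [stat_v4 hb3, stat_va hb1, e1]
        cases a <;> cases b <;> rfl
      · left; right; exact c2
    · left; left; exact c1
  · by_cases c1 : min px 19 ≤ 11 ∧ 9 ≤ min px 19 + 1 ∧ min py 19 ≤ 11 ∧ 9 ≤ min py 19 + 1
    · right
      have h1 : st Nd.u1 = some true := hxt 8 (by omega) (by omega)
      have h2 : st Nd.u2 = some false := hxf 13 (by omega) (by omega)
      have h3 : st Nd.w1 = some true := hyt 8 (by omega) (by omega)
      have h4 : st Nd.w2 = some false := hyf 13 (by omega) (by omega)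
      obtain ⟨h5, h6⟩ := h.centre (h.nrst_false h1 h2 h3 h4)
      exact stat_ha_true h5 h6
    · left
      by_contra hc
      push Not at hc
      exact c1 ⟨hc.1.1.1, hc.1.1.2, hc.1.2, hc.2⟩

/-- One axis. -/
theorem Model.axis (h : Model I st) (hI : I.Valid) (e : Bool)
    (hs : (∀ j ∈ Gd st, dirOf st j ≠ plusD e) ∨ (∀ j ∈ Gd st, dirOf st j ≠ minusD e)) :
    ∃ ξ, ((Gd st).filter fun j => posOf st e j ≠ ξ).card +
      ((Gd st).filter fun j => dirOf st j = plusD e ∨ dirOf st j = minusD e).card ≤ 552 := by
  have hw := h.win1 hI e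
  have hGc := h.Gd_card1 hI
  obtain ⟨hs1, hs2⟩ := h.sums hI e
  have hpos : ∀ j ∈ Gd st, Pos st e j (posOf st e j) := by
    intro j hj
    obtain ⟨hj1, hj2⟩ := mem_Gd.1 hj
    cases e
    · exact h.posOf_spec hj1 hj2.1
    · exact h.posOf_spec hj1 hj2.2
  have hp20 : pp st e ≤ 20 := by unfold pp; omega
  have hedge : ∀ j ∈ Gd st, (posOf st e j = 20 → dirOf st j ≠ plusD e) ∧
      (posOf st e j = 0 → dirOf st j ≠ minusD e) := by
    intro j hj
    obtain ⟨hj1, hj2⟩ := mem_Gd.1 hj
    have hX := (h.posOf_spec hj1 hj2.1).le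
    have hY := (h.posOf_spec hj1 hj2.2).le
    cases e
    · have := bd (stat st) hY
      constructor
      · intro hc; unfold dirOf; rw [hc]; exact this.2.1
      · intro hc; unfold dirOf; rw [hc]; exact this.1
    · have := bd (stat st) hX
      constructor
      · intro hc; unfold dirOf; rw [hc]; exact this.2.2.2
      · intro hc; unfold dirOf; rw [hc]; exact this.2.2.1
  refine axis_aux (Gd st) hGc Gd_card_le (posOf st e) (fun j => dirOf st j = plusD e)
    (fun j => dirOf st j = minusD e) (fun j => newPos e (posOf st e j) (dirOf st j)) (pp st e)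
    (lo st e) (up st e) (st (Nd.bit e (pp st e + 1)) = some false ∨ pp st e = 20)
    hp20 ?_ ?_ (fun hc => Or.inr hc) ?_ ?_ ?_ (lo_le_up _ _) hs1 (by omega) ?_ ?_ ?_ hs
  · intro j hj
    obtain ⟨a, b⟩ := hw.pos_mem h (mem_Gd.1 hj).1 (hpos j hj)
    omega
  · intro hb j hj
    have hpj := hpos j hj
    obtain ⟨a, b⟩ := hw.pos_mem h (mem_Gd.1 hj).1 hpj
    have hle := hpj.le
    rcases hb with hb | hb
    · by_cases hc : pp st e = 20
      · omega
      · have := hpj.lt_of_bit h (mem_Gd.1 hj).1 (by omega) (by omega) hb
        omega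
    · omega
  · intro hlt
    unfold pp at hlt ⊢
    omega
  · intro hge
    unfold pp at hge ⊢
    omega
  · intro hb
    push Not at hb
    obtain ⟨hb1, hb2⟩ := hb
    by_contra hc
    exact hb1 (h.bit_false e (by omega) (by omega) (by omega))
  · intro j hj
    have hpm := plus_ne_minus e
    have hed := hedge j hj
    show newPos e (posOf st e j) (dirOf st j) + _ = _
    unfold newPos
    by_cases c1 : dirOf st j = plusD e
    · have c2 : ¬ dirOf st j = minusD e := fun hc => hpm (c1.symm.trans hc)
      simp [c1, hpm]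
    · by_cases c2 : dirOf st j = minusD e
      · have : posOf st e j ≠ 0 := fun hc => hed.2 hc c2
        rw [if_neg c1, if_pos c2, if_pos c2, if_neg c1]
        omega
      · simp [c1, c2]
  · intro hp j hj hc
    have hpj := hpos j hj
    obtain ⟨a, b⟩ := hw.pos_mem h (mem_Gd.1 hj).1 hpj
    exact (hedge j hj).1 (by have := hpj.le; omega) hc
  · intro hp hb j hj hc
    have hpj := hpos j hj
    have : posOf st e j = 0 := by
      rcases hb with hb | hb
      · have := hpj.lt_of_bit h (mem_Gd.1 hj).1 (by omega) (by omega) hb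
        omega
      · omega
    exact (hedge j hj).2 this hc

/-- Every model stores a solution. -/
theorem Model.sol (h : Model I st) (hI : I.Valid) : Sol I st := by
  rcases h.compat hI with hc | hs
  swap
  · exact hs
  exfalso
  obtain ⟨P, Q, hPQ⟩ := exists_quad (stat st) (x := min (pp st false) 19)
    (y := min (pp st true) 19) (by omega) (by omega) hc
  have wx := h.win1 hI false
  have wy := h.win1 hI true
  have hquad : ∀ j ∈ Gd st, inQuad P Q (dirOf st j) = true := by
    intro j hj
    obtain ⟨hj1, hj2⟩ := mem_Gd.1 hj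
    have hX := h.posOf_spec hj1 hj2.1
    have hY := h.posOf_spec hj1 hj2.2
    obtain ⟨a1, a2⟩ := wx.pos_mem h hj1 hX
    obtain ⟨b1, b2⟩ := wy.pos_mem h hj1 hY
    have hX20 := hX.le
    have hY20 := hY.le
    exact hPQ _ _ (by omega) (by omega)
  have hsx : (∀ j ∈ Gd st, dirOf st j ≠ plusD false) ∨
      (∀ j ∈ Gd st, dirOf st j ≠ minusD false) := by
    cases P
    · left
      intro j hj hc
      have := hquad j hj
      rw [hc] at this
      simp [inQuad, plusD] at this
    · right
      intro j hj hc
      have := hquad j hj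
      rw [hc] at this
      simp [inQuad, minusD] at this
  have hsy : (∀ j ∈ Gd st, dirOf st j ≠ plusD true) ∨
      (∀ j ∈ Gd st, dirOf st j ≠ minusD true) := by
    cases Q
    · left
      intro j hj hc
      have := hquad j hj
      rw [hc] at this
      simp [inQuad, plusD] at this
    · right
      intro j hj hc
      have := hquad j hj
      rw [hc] at this
      simp [inQuad, minusD] at this
  obtain ⟨ξ, hξ⟩ := h.axis hI false hsx
  obtain ⟨η, hη⟩ := h.axis hI true hsy
  have hG := h.Gd_card1 hI
  have hmov : (Gd st).card ≤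
      ((Gd st).filter fun j => dirOf st j = plusD false ∨ dirOf st j = minusD false).card +
      ((Gd st).filter fun j => dirOf st j = plusD true ∨ dirOf st j = minusD true).card := by
    refine le_trans (Finset.card_le_card fun j hj => ?_) (Finset.card_union_le _ _)
    rw [Finset.mem_union, Finset.mem_filter, Finset.mem_filter]
    rcases e : dirOf st j <;> simp [hj, plusD, minusD]
  have hsame : (Gd st).card ≤
      ((Gd st).filter fun j => posOf st false j = ξ ∧ posOf st true j = η).card +
      (((Gd st).filter fun j => posOf st false j ≠ ξ).card +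
      ((Gd st).filter fun j => posOf st true j ≠ η).card) := by
    refine le_trans (Finset.card_le_card fun j hj => ?_)
      ((Finset.card_union_le _ _).trans (add_le_add le_rfl (Finset.card_union_le _ _)))
    rw [Finset.mem_union, Finset.mem_union, Finset.mem_filter, Finset.mem_filter,
      Finset.mem_filter]
    by_cases c1 : posOf st false j = ξ
    · by_cases c2 : posOf st true j = η
      · exact Or.inl ⟨hj, c1, c2⟩
      · exact Or.inr (Or.inr ⟨hj, c2⟩)
    · exact Or.inr (Or.inl ⟨hj, c1⟩)
  have hdir : ∀ j ∈ (Gd st).filter (fun j => posOf st false j = ξ ∧ posOf st true j = η),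
      dirOf st j = dir (stat st) ξ η := by
    intro j hj
    rw [Finset.mem_filter] at hj
    unfold dirOf
    rw [hj.2.1, hj.2.2]
  have hfin : ∃ e : Bool, dir (stat st) ξ η = plusD e ∨ dir (stat st) ξ η = minusD e := by
    rcases e : dir (stat st) ξ η
    · exact ⟨false, by simp [plusD]⟩
    · exact ⟨true, by simp [plusD]⟩
    · exact ⟨false, by simp [minusD]⟩
    · exact ⟨true, by simp [minusD]⟩
  obtain ⟨e, he⟩ := hfin
  have hbig : ((Gd st).filter fun j => posOf st false j = ξ ∧ posOf st true j = η).card ≤
      ((Gd st).filter fun j => dirOf st j = plusD e ∨ dirOf st j = minusD e).card := by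
    refine Finset.card_le_card fun j hj => ?_
    have h1 := hdir j hj
    rw [Finset.mem_filter] at hj ⊢
    rw [h1]
    exact ⟨hj.1, he⟩
  cases e <;> omega

end Vale.Agent.P330.LS
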