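import Vale.Agent.P330.LS.Red
import Vale.Agent.Lib.PolyTime.Lists2

/-!
The reduction and the decoder are computable in polynomial time.
-/

namespace Vale.Agent.P330.LS

open Vale.Agent.Lib.PolyTime

variable {A : Set Word} {α β : Type} [Enc α] [Enc β]

/-! ### Access to the structures -/

theorem PTeol {f : α → EoL} (hf : PT A f) : PT A (fun a => ((f a).n, (f a).S, (f a).P)) := by
  obtain ⟨F, hF, hF'⟩ := hf
  exact ⟨F, hF, hF'⟩

theorem PTn {f : α → EoL} (hf : PT A f) : PT A (fun a => (f a).n) := (PTeol hf).fst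
theorem PTS {f : α → EoL} (hf : PT A f) : PT A (fun a => (f a).S) := (PTeol hf).snd.fst
theorem PTP {f : α → EoL} (hf : PT A f) : PT A (fun a => (f a).P) := (PTeol hf).snd.snd

theorem PTmkEol {n : α → ℕ} {S P : α → BCirc} (hn : PT A n) (hS : PT A S) (hP : PT A P) :
    PT A (fun a => EoL.mk (n a) (S a) (P a)) := by
  obtain ⟨F, hF, hF'⟩ := hn.pair (hS.pair hP)
  exact ⟨F, hF, hF'⟩

theorem PTcircT {f : α → BCirc} (hf : PT A f) : PT A (fun a => ((f a).gates, (f a).outs)) := by
  obtain ⟨F, hF, hF'⟩ := hf
  exact ⟨F, hF, hF'⟩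

theorem PTgates {f : α → BCirc} (hf : PT A f) : PT A (fun a => (f a).gates) := (PTcircT hf).fst
theorem PTouts {f : α → BCirc} (hf : PT A f) : PT A (fun a => (f a).outs) := (PTcircT hf).snd

theorem PTcode {f : α → BGate} (hf : PT A f) : PT A (fun a => (f a).code) := by
  obtain ⟨F, hF, hF'⟩ := hf
  exact ⟨F, hF, hF'⟩

theorem PTmkG {n : α → ℕ} {g : α → List (ℕ × Gate)} (hn : PT A n) (hg : PT A g) :
    PT A (fun a => GCirc.mk (n a) (g a)) := by
  obtain ⟨F, hF, hF'⟩ := hn.pair hg
  exact ⟨F, hF, hF'⟩

theorem PTgcode {f : α → Gate} (hf : PT A (fun a => (f a).code)) : PT A f := by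
  obtain ⟨F, hF, hF'⟩ := hf
  exact ⟨F, hF, hF'⟩

theorem PTand {f g : α → ℕ} (hf : PT A f) (hg : PT A g) : PT A (fun a => Gate.and (f a) (g a)) :=
  PTgcode ((PT.const 8).pair ((PT.const (0 : ℚ)).pair (hf.pair hg)))

theorem PTor {f g : α → ℕ} (hf : PT A f) (hg : PT A g) : PT A (fun a => Gate.or (f a) (g a)) :=
  PTgcode ((PT.const 7).pair ((PT.const (0 : ℚ)).pair (hf.pair hg)))

theorem PTnot {f : α → ℕ} (hf : PT A f) : PT A (fun a => Gate.not (f a)) :=
  PTgcode ((PT.const 6).pair ((PT.const (0 : ℚ)).pair (hf.pair (PT.const 0))))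

theorem PTless {f g : α → ℕ} (hf : PT A f) (hg : PT A g) : PT A (fun a => Gate.less (f a) (g a)) :=
  PTgcode ((PT.const 5).pair ((PT.const (0 : ℚ)).pair (hf.pair hg)))

theorem PTcirc {f : α → EoL} (hf : PT A f) (q : Bool) : PT A (fun a => (f a).circ q) := by
  cases q
  · exact PTP hf
  · exact PTS hf

/-! ### Numbers of nodes -/

/-- The number of the node `ν a` is computable. -/
def PTnum (A : Set Word) (J : α → EoL) (ν : α → Nd) : Prop := PT A (fun a => num (J a) (ν a))

theorem PTnum_geo {J : α → EoL} (g : Geo) : PTnum A J (fun _ => .geo g) := PT.const _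

theorem PTnum_fld {J : α → EoL} {i : α → ℕ} (hi : PT A i) (f : Fld) :
    PTnum A J (fun a => .fld (i a) f) :=
  ((PT.const (2 + G0)).add ((PT.const FF).mul hi)).add (PT.const _)

theorem PTnum_cg {J : α → EoL} (hJ : PT A J) (q : Bool) {k : α → ℕ} (hk : PT A k) :
    PTnum A J (fun a => .cg q (k a)) := by
  cases q
  · exact ((PT.const (2 + G0)).add ((PT.const FF).mul ((PTn hJ).add (PT.const 1)))).add hk
  · exact (((PT.const (2 + G0)).add ((PT.const FF).mul ((PTn hJ).add (PT.const 1)))).add
      (PTgates (PTP hJ)).length).add hk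

theorem PTnum_ref {J : α → EoL} (hJ : PT A J) (q : Bool) {u : α → ℕ} (hu : PT A u) :
    PTnum A J (fun a => ref (J a) q (u a)) := by
  have h1 := PTnum_fld (J := J) hu (.r (!q))
  have h2 := PTnum_cg hJ q (hu.sub (PTn hJ))
  refine (PT.ite (p := fun a => u a < (J a).n) (PT.lt hu (PTn hJ)) h1 h2).congr fun a => ?_
  show _ = num (J a) (if u a < (J a).n then Nd.fld (u a) (.r (!q)) else Nd.cg q (u a - (J a).n))
  split_ifs <;> rfl

theorem PTnum_xt {J : α → EoL} (hJ : PT A J) (q : Bool) {i : α → ℕ} (hi : PT A i) :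
    PTnum A J (fun a => xt (J a) (i a) q) :=
  PTnum_ref hJ q (PT.getD (PTouts (PTcirc hJ q)) hi (PT.const 0))

/-- The gate `p a`, with the numbers of its operands, is computable. -/
def PTg (A : Set Word) (J : α → EoL) (p : α → PGate Nd) : Prop :=
  PT A (fun a => toG (num (J a)) (p a))

theorem PTg_const {J : α → EoL} (b : Bool) : PTg A J (fun _ => .const b) := PT.const _
theorem PTg_not {J : α → EoL} {ν : α → Nd} (h : PTnum A J ν) : PTg A J (fun a => .not (ν a)) :=
  PTnot h
theorem PTg_lo {J : α → EoL} {ν : α → Nd} (h : PTnum A J ν) : PTg A J (fun a => .lo (ν a)) :=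
  PTless (PT.const 0) h
theorem PTg_hi {J : α → EoL} {ν : α → Nd} (h : PTnum A J ν) : PTg A J (fun a => .hi (ν a)) :=
  PTless (PT.const 1) h
theorem PTg_and {J : α → EoL} {ν μ : α → Nd} (h : PTnum A J ν) (h' : PTnum A J μ) :
    PTg A J (fun a => .and (ν a) (μ a)) := PTand h h'
theorem PTg_or {J : α → EoL} {ν μ : α → Nd} (h : PTnum A J ν) (h' : PTnum A J μ) :
    PTg A J (fun a => .or (ν a) (μ a)) := PTor h h'

attribute [local irreducible] PTg PTnum in
theorem PTg_fld {J : α → EoL} (hJ : PT A J) {i : α → ℕ} (hi : PT A i) (f : Fld) :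
    PTg A J (fun a => fldGate (i a) (xt (J a) (i a)) f) := by
  have hi1 : PT A (fun a => i a + 1) := hi.add (PT.const 1)
  have hF := fun f => PTnum_fld (J := J) hi f
  have hF1 := fun f => PTnum_fld (J := J) hi1 f
  have hX := fun q => PTnum_xt hJ q hi
  have hL : ∀ q, PTnum A J (fun _ => lt q) := by
    intro q; cases q <;> exact PTnum_geo _
  have hNL : ∀ q, PTnum A J (fun _ => nlt q) := by
    intro q; cases q <;> exact PTnum_geo _
  cases f <;> simp only [fldGate] <;>
    first
      | exact PTg_lo (hF _)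
      | exact PTg_hi (hF _)
      | exact PTg_not (hF _)
      | exact PTg_not (hX _)
      | exact PTg_or (hF _) (hF _)
      | exact PTg_and (hF _) (hF _)
      | exact PTg_and (hF _) (hX _)
      | exact PTg_and (hX _) (hF _)
      | exact PTg_and (hF _) (hF1 _)
      | exact PTg_and (hL _) (hF _)
      | exact PTg_and (hNL _) (hF _)
      | exact PTg_and (PTnum_geo _) (hF _)
      | exact PTg_and (PTnum_geo _) (hX _)

theorem PTg_ite {J : α → EoL} {p p' : α → PGate Nd} {c : α → Prop} [DecidablePred c]
    (hc : PT A (fun a => decide (c a))) (h : PTg A J p) (h' : PTg A J p') :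
    PTg A J (fun a => if c a then p a else p' a) :=
  (PT.ite hc h h').congr fun a => by
    show _ = toG (num (J a)) (if c a then p a else p' a)
    split_ifs <;> rfl

theorem PTentry_fld {J : α → EoL} (hJ : PT A J) {i : α → ℕ} (hi : PT A i) (f : Fld) :
    PT A (fun a => entry (J a) (.fld (i a) f)) := by
  refine PT.pair (PTnum_fld hi f) ?_
  exact PTg_ite (p := fun a => fldGate (i a) (xt (J a) (i a)) f) (p' := fun _ => .const true)
    (c := fun a => i a < (J a).n) (PT.lt hi (PTn hJ)) (PTg_fld hJ hi f) (PTg_const true)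

theorem PTg_b {J : α → EoL} (hJ : PT A J) (q : Bool) {g : α → BGate} (hg : PT A g) :
    PTg A J (fun a => bGate (J a) q (g a)) := by
  have hc := PTcode hg
  have hu := PTnum_ref hJ q hc.snd.fst
  have hv := PTnum_ref hJ q hc.snd.snd
  refine (PT.ite (p := fun a => (g a).code.1 = 0) (PT.eqNat hc.fst (PT.const 0)) (PTg_and hu hv)
    (PT.ite (p := fun a => (g a).code.1 = 1) (PT.eqNat hc.fst (PT.const 1)) (PTg_or hu hv)
      (PTg_not hu))).congr fun a => ?_
  show (if (g a).code.1 = 0 then
      toG (num (J a)) (.and (ref (J a) q (g a).code.2.1) (ref (J a) q (g a).code.2.2))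
    else if (g a).code.1 = 1 then
      toG (num (J a)) (.or (ref (J a) q (g a).code.2.1) (ref (J a) q (g a).code.2.2))
    else toG (num (J a)) (.not (ref (J a) q (g a).code.2.1))) =
      toG (num (J a)) (bGate (J a) q (g a))
  rcases g a with ⟨u, v⟩ | ⟨u, v⟩ | u <;> simp [BGate.code, bGate]

theorem PTentry_cg {J : α → EoL} (hJ : PT A J) (q : Bool) {k : α → ℕ} (hk : PT A k) :
    PT A (fun a => entry (J a) (.cg q (k a))) := by
  refine PT.pair (PTnum_cg hJ q hk) ?_
  have h1 : PT A (fun a => ((J a).circ q).gates[k a]?) := PT.getElem? (PTgates (PTcirc hJ q)) hk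
  refine (PT.optCase (f := fun a => toG (num (J a)) (.const true))
    (g := fun a g => toG (num (J a)) (bGate (J a) q g)) h1 (PT.const _)
    (PTg_b (J := fun p : α × BGate => J p.1) (hJ.comp PT.fst') q PT.snd')).congr fun a => ?_
  show _ = toG (num (J a)) (match ((J a).circ q).gates[k a]? with
    | some g => bGate (J a) q g
    | none => PGate.const true)
  rcases ((J a).circ q).gates[k a]? with _ | g <;> rfl

theorem toG_congr {f f' : Nd → ℕ} {r : Nd → Prop} {p : PGate Nd} (hp : p.All r)
    (h : ∀ a, r a → f a = f' a) : toG f p = toG f' p := by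
  cases p with
  | const b => rfl
  | not a => simp only [toG]; rw [h a hp]
  | and a b => simp only [toG]; rw [h a hp.1, h b hp.2]
  | or a b => simp only [toG]; rw [h a hp.1, h b hp.2]
  | lo a => simp only [toG]; rw [h a hp]
  | hi a => simp only [toG]; rw [h a hp]

theorem entry_geo (I I' : EoL) (g : Geo) : entry I (.geo g) = entry I' (.geo g) := by
  have : toG (num I) (geoGate g) = toG (num I') (geoGate g) :=
    toG_congr (geoGate_all g) fun a ha => by
      rcases a with g | ⟨i, f⟩ | ⟨q, k⟩
      · rfl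
      · rfl
      · exact ha.elim
  show (num I (.geo g), toG (num I) (geoGate g)) = (num I' (.geo g), toG (num I') (geoGate g))
  rw [this]
  rfl

theorem PTmapConst {γ : Type} {F : γ → α → β} (l : List γ) (h : ∀ c ∈ l, PT A (F c)) :
    PT A (fun a => l.map (fun c => F c a)) := by
  induction l with
  | nil => exact PT.const []
  | cons c l ih =>
    exact PT.cons (h c (by simp)) (ih fun c hc => h c (by simp [hc]))

theorem PTred (t1 t2 : ℚ) {J : α → EoL} (hJ : PT A J) (hn : PBd (fun a => (J a).n)) :
    PT A (fun a => red t1 t2 (J a)) := by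
  have hn1 : PT A (fun a => (J a).n + 1) := (PTn hJ).add (PT.const 1)
  have hP := PTgates (PTP hJ)
  have hS := PTgates (PTS hJ)
  refine PTmkG (g := fun a => (red t1 t2 (J a)).gates) ?_ ?_
  · exact (((PT.const (2 + G0)).add ((PT.const FF).mul hn1)).add hP.length).add hS.length
  · refine PT.append (PT.const _) (PT.append ?_ (PT.append ?_ (PT.append ?_ ?_)))
    · refine (PT.const (geoNodes.map (entry ⟨0, ⟨[], []⟩, ⟨[], []⟩⟩))).congr fun a => ?_
      unfold geoNodes
      rw [List.map_map, List.map_map]
      refine List.map_congr_left fun j _ => ?_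
      exact entry_geo _ _ _
    · refine PT.flatMap (f := fun a i => (fldNodes i).map (entry (J a)))
        (PT.range hn1 (hn.add (PBd.const 1))) ?_
      have h1 : PT A (fun p : α × ℕ => (List.finRange FF).map
          (fun j => entry (J p.1) (.fld p.2 (fldEquiv.symm j)))) :=
        PTmapConst (F := fun j (p : α × ℕ) => entry (J p.1) (.fld p.2 (fldEquiv.symm j))) _
          fun j _ => PTentry_fld (J := fun p : α × ℕ => J p.1) (hJ.comp PT.fst') PT.snd' _
      refine h1.congr fun p => ?_
      unfold fldNodes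
      rw [List.map_map]
      rfl
    · refine (PT.map (f := fun a k => entry (J a) (.cg false k)) (PT.range hP.length
        (PBd.length hP)) (PTentry_cg (J := fun p : α × ℕ => J p.1) (hJ.comp PT.fst') false
          PT.snd')).congr fun a => ?_
      unfold cgNodes
      rw [List.map_map]
      rfl
    · refine (PT.map (f := fun a k => entry (J a) (.cg true k)) (PT.range hS.length
        (PBd.length hS)) (PTentry_cg (J := fun p : α × ℕ => J p.1) (hJ.comp PT.fst') true
          PT.snd')).congr fun a => ?_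
      unfold cgNodes
      rw [List.map_map]
      rfl

/-! ### Normalization -/

/-- The number of bits is bounded by the number of outputs of `S`. -/
def nrm (I : EoL) : EoL := ⟨min I.n I.S.outs.length, I.S, I.P⟩

theorem nrm_eq {I : EoL} (hI : I.Valid) : nrm I = I := by
  have : min I.n I.S.outs.length = I.n := by rw [hI.2.1.2.1]; exact min_self _
  unfold nrm
  rw [this]

theorem PTnrm {J : α → EoL} (hJ : PT A J) : PT A (fun a => nrm (J a)) :=
  PTmkEol (PT.min (PTn hJ) (PTouts (PTS hJ)).length) (PTS hJ) (PTP hJ)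

theorem PBd_nrm {J : α → EoL} (hJ : PT A J) : PBd (fun a => (nrm (J a)).n) :=
  (PBd.length (PTouts (PTS hJ))).mono fun a => min_le_right _ _

/-! ### Decoding -/

/-- The string stored in a block. -/
noncomputable def readBlock (I : EoL) (x : List ℚ) (q : Bool) : List Bool :=
  (List.range I.n).map fun i => decide ((1 / 2 : ℚ) < x.getD (num I (.fld i (.r q))) 0)

/-- Test whether a string is a solution. -/
def isSolB (I : EoL) (v : List Bool) : Bool :=
  decide (¬ v = zeros I.n) && (decide (¬ I.P.eval (I.S.eval v) = v) ||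
    decide (¬ I.S.eval (I.P.eval v) = v))

/-- The decoder. -/
noncomputable def decode (p : EoL × List ℚ) : List Bool :=
  if isSolB (nrm p.1) (readBlock (nrm p.1) p.2 false) then readBlock (nrm p.1) p.2 false
  else readBlock (nrm p.1) p.2 true

theorem PTeqBools {f g : α → List Bool} (hf : PT A f) (hg : PT A g) :
    PT A (fun a => decide (f a = g a)) := by
  have h1 : PT A (fun a => decide ((f a).length = (g a).length)) := PT.eqNat hf.length hg.length
  have h2 : PT A (fun a => ((f a).zip (g a)).all fun p => !(Bool.xor p.1 p.2)) :=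
    PT.all (f := fun _ p => !(Bool.xor p.1 p.2)) (PT.zip hf hg) (PT.snd'.fst.xor PT.snd'.snd).not
  refine (h1.and h2).congr fun a => ?_
  rw [Bool.eq_iff_iff, Bool.and_eq_true, decide_eq_true_iff, decide_eq_true_iff]
  generalize f a = l
  generalize g a = l'
  induction l generalizing l' with
  | nil => cases l' <;> simp
  | cons b l ih =>
    cases l' with
    | nil => simp
    | cons b' l' =>
      have := ih l'
      simp only [List.length_cons, Nat.add_right_cancel_iff, List.zip_cons_cons, List.all_cons,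
        Bool.and_eq_true, List.cons.injEq, ← this]
      cases b <;> cases b' <;> simp

theorem esize_bools (l : List Bool) : esize l = 3 * l.length := by
  induction l with
  | nil => rfl
  | cons b l ih => rw [esize_list_cons, ih, esize_bool, List.length_cons]; ring

theorem PTbEval {g : α → BGate} {w : α → List Bool} (hg : PT A g) (hw : PT A w) :
    PT A (fun a => (g a).eval (w a)) := by
  have hc := PTcode hg
  have hu : PT A (fun a => (w a).getD (g a).code.2.1 false) :=
    PT.getD hw hc.snd.fst (PT.const false)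
  have hv : PT A (fun a => (w a).getD (g a).code.2.2 false) :=
    PT.getD hw hc.snd.snd (PT.const false)
  refine (PT.ite (p := fun a => (g a).code.1 = 0) (PT.eqNat hc.fst (PT.const 0)) (hu.and hv)
    (PT.ite (p := fun a => (g a).code.1 = 1) (PT.eqNat hc.fst (PT.const 1)) (hu.or hv)
      hu.not)).congr fun a => ?_
  rcases g a with ⟨u, v⟩ | ⟨u, v⟩ | u <;> simp [BGate.code, BGate.eval]

theorem foldl_vals_length' (gs : List BGate) : ∀ (w : List Bool),
    (gs.foldl (fun w g => w ++ [g.eval w]) w).length = w.length + gs.length := by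
  induction gs with
  | nil => intro w; rfl
  | cons g gs ih =>
    intro w
    rw [List.foldl_cons, ih]
    simp; omega

theorem PTvals {C : α → BCirc} {v : α → List Bool} (hC : PT A C) (hv : PT A v) :
    PT A (fun a => (C a).vals (v a)) := by
  have hb : PBd (fun a => 3 * ((v a).length + (C a).gates.length)) :=
    (PBd.const 3).mul ((PBd.length hv).add (PBd.length (PTgates hC)))
  refine PT.foldl (l := fun a => (C a).gates) (init := v)
    (f := fun _ w g => w ++ [BGate.eval w g]) (PTgates hC) hv ?_ hb fun a i => ?_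
  · exact PT.append PT.snd'.fst (PT.cons (PTbEval (g := fun p : α × List Bool × BGate => p.2.2)
      (w := fun p => p.2.1) PT.snd'.snd PT.snd'.fst) (PT.const []))
  · rw [esize_bools, foldl_vals_length']
    have : ((C a).gates.take i).length ≤ (C a).gates.length := by
      rw [List.length_take]; exact min_le_right _ _
    omega

theorem PTeval {C : α → BCirc} {v : α → List Bool} (hC : PT A C) (hv : PT A v) :
    PT A (fun a => (C a).eval (v a)) :=
  PT.map (f := fun a i => ((C a).vals (v a)).getD i false) (PTouts hC)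
    (PT.getD ((PTvals hC hv).comp PT.fst') PT.snd' (PT.const false))

theorem PTratT {f : α → ℚ} (hf : PT A f) :
    PT A (fun a => (decide (f a < 0), (f a).num.natAbs, (f a).den)) := by
  obtain ⟨F, hF, hF'⟩ := hf
  exact ⟨F, hF, hF'⟩

theorem half_lt_iff (q : ℚ) : (1 / 2 < q) ↔ (¬ q < 0 ∧ q.den < 2 * q.num.natAbs) := by
  by_cases h : q < 0
  · constructor
    · intro h1; linarith
    · intro h1; exact absurd h h1.1
  · have h0 : 0 ≤ q := not_lt.1 h
    have hn : 0 ≤ q.num := Rat.num_nonneg.2 h0
    have hd : (0 : ℚ) < q.den := by exact_mod_cast q.den_pos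
    have h2 : ((q.num.natAbs : ℤ) : ℚ) = q.num := by
      rw [Int.natAbs_of_nonneg hn]
    have h3 : (1 / 2 < q) ↔ (q.den : ℚ) < 2 * q.num := by
      conv_lhs => rw [← Rat.num_div_den q]
      rw [lt_div_iff₀ hd]
      constructor <;> intro h4 <;> linarith
    rw [h3]
    constructor
    · intro h4
      refine ⟨h, ?_⟩
      rw [← h2] at h4
      exact_mod_cast h4
    · rintro ⟨-, h4⟩
      rw [← h2]
      exact_mod_cast h4

theorem PThalf {f : α → ℚ} (hf : PT A f) : PT A (fun a => decide ((1 / 2 : ℚ) < f a)) := by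
  have h := PTratT hf
  refine (h.fst.not.and (PT.lt h.snd.snd ((PT.const 2).mul h.snd.fst))).congr fun a => ?_
  rw [Bool.eq_iff_iff, Bool.and_eq_true, decide_eq_true_iff, decide_eq_true_iff, half_lt_iff]
  simp

theorem PTread {J : α → EoL} (hn : PBd (fun a => (J a).n)) (hJ : PT A J) {x : α → List ℚ}
    (hx : PT A x) (q : Bool) : PT A (fun a => readBlock (J a) (x a) q) := by
  refine PT.map (f := fun a i => decide ((1 / 2 : ℚ) < (x a).getD (num (J a) (.fld i (.r q))) 0))
    (PT.range (PTn hJ) hn) (PThalf ?_)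
  exact PT.getD (hx.comp PT.fst') (PTnum_fld (J := fun p : α × ℕ => J p.1) PT.snd' _)
    (PT.const (0 : ℚ))

theorem PTzeros {n : α → ℕ} (hn : PT A n) (hb : PBd n) : PT A (fun a => zeros (n a)) :=
  PT.replicate hn hb (PT.const false)

theorem PTisSolB {J : α → EoL} (hn : PBd (fun a => (J a).n)) (hJ : PT A J) {v : α → List Bool}
    (hv : PT A v) : PT A (fun a => isSolB (J a) (v a)) := by
  refine PT.and ?_ (PT.or ?_ ?_)
  · exact PT.decide_not (PTeqBools hv (PTzeros (PTn hJ) hn))
  · exact PT.decide_not (PTeqBools (PTeval (PTP hJ) (PTeval (PTS hJ) hv)) hv)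
  · exact PT.decide_not (PTeqBools (PTeval (PTS hJ) (PTeval (PTP hJ) hv)) hv)

theorem PTdecode : PT A decode := by
  have hJ : PT A (fun p : EoL × List ℚ => nrm p.1) := PTnrm PT.fst'
  have hn : PBd (fun p : EoL × List ℚ => (nrm p.1).n) := PBd_nrm (A := A) PT.fst'
  have h1 := PTread hn hJ PT.snd' false
  have h2 := PTread hn hJ PT.snd' true
  refine PT.ite (p := fun p : EoL × List ℚ =>
    isSolB (nrm p.1) (readBlock (nrm p.1) p.2 false) = true) ?_ h1 h2
  exact (PTisSolB hn hJ h1).congr fun a => by simp

end Vale.Agent.P330.LS
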