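import Vale.Agent.P330.LS.Main

/-!
The reduction: numbering of the nodes, the generalized circuit, and soundness.
-/

namespace Vale.Agent.P330.LS

open Vale.Agent.Lib.PolyTime

/-! ### Numbering -/

instance : Finite {g : Geo // g.Ok} := by
  have h : Function.Injective (fun g : {g : Geo // g.Ok} =>
      ((g.1.tag, g.1.e, g.1.d, (⟨g.1.p, Nat.lt_succ_of_le g.2.1⟩ : Fin (BB + 1)),
        (⟨g.1.q, Nat.lt_succ_of_le g.2.2.1⟩ : Fin (BB + 1)),
        (⟨g.1.r, Nat.lt_succ_of_le g.2.2.2⟩ : Fin (BB + 1))) :
        Tag × Bool × Dir × Fin (BB + 1) × Fin (BB + 1) × Fin (BB + 1))) := by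
    intro a b hab
    simp only [Prod.mk.injEq, Fin.mk.injEq] at hab
    obtain ⟨h1, h2, h3, h4, h5, h6⟩ := hab
    exact Subtype.ext (Geo.ext h1 h2 h3 h4 h5 h6)
  exact Finite.of_injective _ h

noncomputable instance : Fintype {g : Geo // g.Ok} := Fintype.ofFinite _

/-- Number of geometric nodes. -/
noncomputable def G0 : ℕ := Fintype.card {g : Geo // g.Ok}

/-- Number of fields. -/
noncomputable def FF : ℕ := Fintype.card Fld

noncomputable def geoEquiv : {g : Geo // g.Ok} ≃ Fin G0 := Fintype.equivFin _
noncomputable def fldEquiv : Fld ≃ Fin FF := Fintype.equivFin _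

theorem G0_pos : 0 < G0 :=
  Fintype.card_pos_iff.2 ⟨⟨⟨.cst, true, .R, 0, 0, 0⟩, Nat.zero_le _, Nat.zero_le _, Nat.zero_le _⟩⟩

open Classical in
/-- Index of a geometric node. -/
noncomputable def gi (g : Geo) : ℕ := if h : g.Ok then (geoEquiv ⟨g, h⟩ : ℕ) else 0

theorem gi_lt (g : Geo) : gi g < G0 := by
  unfold gi
  split_ifs with h
  · exact (geoEquiv ⟨g, h⟩).2
  · exact G0_pos

/-- Number of a node. -/
noncomputable def num (I : EoL) : Nd → ℕ
  | .geo g => 2 + gi g
  | .fld i f => 2 + G0 + FF * i + (fldEquiv f : ℕ)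
  | .cg false k => 2 + G0 + FF * (I.n + 1) + k
  | .cg true k => 2 + G0 + FF * (I.n + 1) + I.P.gates.length + k

/-- Total number of nodes. -/
noncomputable def total (I : EoL) : ℕ :=
  2 + G0 + FF * (I.n + 1) + I.P.gates.length + I.S.gates.length

/-- Gates of the generalized circuit. -/
def toG (f : Nd → ℕ) : PGate Nd → Gate
  | .const b => .const (if b then 1 else 0)
  | .not a => .not (f a)
  | .and a b => .and (f a) (f b)
  | .or a b => .or (f a) (f b)
  | .lo a => .less 0 (f a)
  | .hi a => .less 1 (f a)

/-- Entry of the list of gates for a node. -/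
noncomputable def entry (I : EoL) (z : Nd) : ℕ × Gate := (num I z, toG (num I) (gate I z))

/-- Lists of nodes. -/
noncomputable def geoNodes : List Nd := (List.finRange G0).map fun j => .geo (geoEquiv.symm j).1
noncomputable def fldNodes (i : ℕ) : List Nd := (List.finRange FF).map fun j =>
  .fld i (fldEquiv.symm j)
def cgNodes (I : EoL) (q : Bool) : List Nd :=
  (List.range (I.circ q).gates.length).map fun k => .cg q k

/-- The generalized circuit. -/
noncomputable def red (t1 t2 : ℚ) (I : EoL) : GCirc where
  nodes := total I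
  gates := [(0, .const t1), (1, .const t2)] ++ (geoNodes.map (entry I) ++
    ((List.range (I.n + 1)).flatMap (fun i => (fldNodes i).map (entry I)) ++
      ((cgNodes I false).map (entry I) ++ (cgNodes I true).map (entry I))))

theorem num_geo (I : EoL) (g : Geo) : num I (.geo g) = 2 + gi g := rfl

theorem num_fld (I : EoL) (i : ℕ) (f : Fld) :
    num I (.fld i f) = 2 + G0 + FF * i + (fldEquiv f : ℕ) := rfl

theorem mem_red {t1 t2 : ℚ} {I : EoL} {z : Nd} (hz : Dom I z) :
    entry I z ∈ (red t1 t2 I).gates := by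
  show _ ∈ _ ++ (_ ++ (_ ++ (_ ++ _)))
  simp only [List.mem_append]
  rcases z with g | ⟨i, f⟩ | ⟨q, k⟩
  · right; left
    refine List.mem_map.2 ⟨_, List.mem_map.2 ⟨geoEquiv ⟨g, hz⟩, List.mem_finRange _, rfl⟩, ?_⟩
    simp
  · right; right; left
    refine List.mem_flatMap.2 ⟨i, List.mem_range.2 (Nat.lt_succ_of_le hz), ?_⟩
    refine List.mem_map.2 ⟨_, List.mem_map.2 ⟨fldEquiv f, List.mem_finRange _, rfl⟩, ?_⟩
    simp
  · cases q
    · right; right; right; left
      exact List.mem_map.2 ⟨_, List.mem_map.2 ⟨k, List.mem_range.2 hz, rfl⟩, rfl⟩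
    · right; right; right; right
      exact List.mem_map.2 ⟨_, List.mem_map.2 ⟨k, List.mem_range.2 hz, rfl⟩, rfl⟩

/-! ### The output nodes are `0, 1, …` -/

theorem range'_flatMap (a F : ℕ) (n : ℕ) :
    (List.range n).flatMap (fun i => List.range' (a + F * i) F) = List.range' a (F * n) := by
  induction n with
  | zero => simp
  | succ n ih =>
    rw [List.range_succ, List.flatMap_append, ih]
    simp only [List.flatMap_cons, List.flatMap_nil, List.append_nil]
    rw [Nat.mul_succ, ← List.range'_append_1]

theorem finRange_map_range' (a n : ℕ) :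
    (List.finRange n).map (fun j : Fin n => a + (j : ℕ)) = List.range' a n := by
  rw [List.range'_eq_map_range, ← List.map_coe_finRange_eq_range, List.map_map]
  rfl

theorem red_fst (t1 t2 : ℚ) (I : EoL) :
    (red t1 t2 I).gates.map Prod.fst = List.range (total I) := by
  have h1 : (geoNodes.map (entry I)).map Prod.fst = List.range' 2 G0 := by
    rw [← finRange_map_range', geoNodes, List.map_map, List.map_map]
    refine List.map_congr_left fun j _ => ?_
    show num I (.geo (geoEquiv.symm j).1) = 2 + (j : ℕ)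
    rw [num_geo, gi, dif_pos (geoEquiv.symm j).2]
    simp
  have h2 : ((List.range (I.n + 1)).flatMap (fun i => (fldNodes i).map (entry I))).map Prod.fst =
      List.range' (2 + G0) (FF * (I.n + 1)) := by
    rw [← range'_flatMap, List.map_flatMap]
    refine List.flatMap_congr fun i _ => ?_
    rw [← finRange_map_range', fldNodes, List.map_map, List.map_map]
    refine List.map_congr_left fun j _ => ?_
    show num I (.fld i (fldEquiv.symm j)) = _
    rw [num_fld]
    simp
  have h3 : ((cgNodes I false).map (entry I)).map Prod.fst =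
      List.range' (2 + G0 + FF * (I.n + 1)) I.P.gates.length := by
    rw [cgNodes, List.map_map, List.map_map, List.range'_eq_map_range]
    rfl
  have h4 : ((cgNodes I true).map (entry I)).map Prod.fst =
      List.range' (2 + G0 + FF * (I.n + 1) + I.P.gates.length) I.S.gates.length := by
    rw [cgNodes, List.map_map, List.map_map, List.range'_eq_map_range]
    rfl
  have h0 : ([(0, Gate.const t1), (1, Gate.const t2)] : List (ℕ × Gate)).map Prod.fst =
      List.range' 0 2 := rfl
  show List.map Prod.fst (_ ++ (_ ++ (_ ++ (_ ++ _)))) = _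
  rw [List.map_append, List.map_append, List.map_append, List.map_append, h0, h1, h2, h3, h4,
    List.range'_append_1, List.range'_append_1, List.range_eq_range']
  have e1 : List.range' 2 G0 ++ List.range' (2 + G0)
      (FF * (I.n + 1) + (I.P.gates.length + I.S.gates.length)) =
      List.range' 2 (G0 + (FF * (I.n + 1) + (I.P.gates.length + I.S.gates.length))) := by
    rw [List.range'_append_1]
  rw [e1]
  have e2 := List.range'_append_1 (s := 0) (m := 2)
    (n := G0 + (FF * (I.n + 1) + (I.P.gates.length + I.S.gates.length)))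
  rw [Nat.zero_add] at e2
  rw [e2]
  congr 1
  unfold total
  ring

/-! ### Well-formedness -/

/-- All operands satisfy `p`. -/
def PGate.All {ν : Type} (p : ν → Prop) : PGate ν → Prop
  | .const _ => True
  | .not a => p a
  | .and a b => p a ∧ p b
  | .or a b => p a ∧ p b
  | .lo a => p a
  | .hi a => p a

/-- Nodes that may occur as operands of geometric nodes. -/
def GeoRef : Nd → Prop
  | .geo _ => True
  | .fld i _ => i = 0
  | .cg _ _ => False

theorem geoGate_all (g : Geo) : (geoGate g).All GeoRef := by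
  unfold geoGate
  split
  case h_9 =>
    split_ifs
    · rcases sec g.p g.q <;> exact ⟨trivial, trivial⟩
    all_goals trivial
  all_goals (try split_ifs)
  all_goals first
    | trivial
    | exact ⟨trivial, trivial⟩
    | exact ⟨rfl, rfl⟩
    | exact ⟨rfl, trivial⟩
    | exact (rfl : (0 : ℕ) = 0)
    | (rcases sec g.p g.q <;> exact ⟨trivial, trivial⟩)

/-- Nodes that may occur as operands. -/
def RefOk (I : EoL) : Nd → Prop
  | .geo _ => True
  | .fld i _ => i ≤ I.n
  | .cg q k => k < (I.circ q).gates.length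

theorem Dom.refOk {I : EoL} {z : Nd} (hz : Dom I z) : RefOk I z := by
  rcases z with g | ⟨i, f⟩ | ⟨q, k⟩
  · trivial
  · exact hz
  · exact hz

theorem num_lt {I : EoL} {z : Nd} (hz : RefOk I z) : num I z < total I := by
  rcases z with g | ⟨i, f⟩ | ⟨q, k⟩
  · rw [num_geo]
    have := gi_lt g
    unfold total
    omega
  · rw [num_fld]
    have h1 : i ≤ I.n := hz
    have h2 : (fldEquiv f : ℕ) < FF := (fldEquiv f).2
    have h3 : FF * i + FF ≤ FF * (I.n + 1) := by
      rw [← Nat.mul_succ]
      exact Nat.mul_le_mul_left _ (by omega)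
    unfold total
    omega
  · cases q
    · have h1 : k < I.P.gates.length := hz
      show 2 + G0 + FF * (I.n + 1) + k < _
      unfold total
      omega
    · have h1 : k < I.S.gates.length := hz
      show 2 + G0 + FF * (I.n + 1) + I.P.gates.length + k < _
      unfold total
      omega

theorem PGate.All.imp {ν : Type} {p q : ν → Prop} (h : ∀ a, p a → q a) {g : PGate ν}
    (hg : g.All p) : g.All q := by
  cases g with
  | const b => trivial
  | not a => exact h _ hg
  | and a b => exact ⟨h _ hg.1, h _ hg.2⟩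
  | or a b => exact ⟨h _ hg.1, h _ hg.2⟩
  | lo a => exact h _ hg
  | hi a => exact h _ hg

theorem refOk_ref {I : EoL} {q : Bool} {u : ℕ} (hu : u < I.n + (I.circ q).gates.length) :
    RefOk I (ref I q u) := by
  unfold ref
  split_ifs with h
  · exact h.le
  · show u - I.n < _
    omega

theorem gate_all {I : EoL} (hI : ∀ q, (I.circ q).WF I.n) {z : Nd} (hz : Dom I z) :
    (gate I z).All (RefOk I) := by
  rcases z with g | ⟨i, f⟩ | ⟨q, k⟩
  · refine (geoGate_all g).imp fun a ha => ?_
    rcases a with g | ⟨i, f⟩ | ⟨q, k⟩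
    · trivial
    · show i ≤ I.n
      rw [show i = 0 from ha]
      exact Nat.zero_le _
    · exact ha.elim
  · show (if i < I.n then fldGate i (xt I i) f else .const true).All (RefOk I)
    split_ifs with h
    · have hx : ∀ q, RefOk I (xt I i q) := by
        intro q
        refine refOk_ref ?_
        have h1 : i < (I.circ q).outs.length := by rw [(hI q).2.1]; exact h
        rw [List.getD_eq_getElem _ _ h1]
        exact (hI q).2.2 _ (List.getElem_mem h1)
      have h0 : i ≤ I.n := h.le
      have h1 : i + 1 ≤ I.n := h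
      have hl : ∀ q, RefOk I (lt q) := by intro q; cases q <;> trivial
      have hnl : ∀ q, RefOk I (nlt q) := by intro q; cases q <;> trivial
      cases f <;> simp only [fldGate, PGate.All] <;>
        first
          | exact h0
          | exact ⟨h0, h0⟩
          | exact ⟨h0, h1⟩
          | exact hx _
          | exact ⟨trivial, hx _⟩
          | exact ⟨trivial, h0⟩
          | exact ⟨hx _, h0⟩
          | exact ⟨h0, hx _⟩
          | exact ⟨hl _, h0⟩
          | exact ⟨hnl _, h0⟩
    · trivial
  · have hk : k < (I.circ q).gates.length := hz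
    show (match (I.circ q).gates[k]? with
      | some g => bGate I q g
      | none => PGate.const true).All (RefOk I)
    rw [List.getElem?_eq_getElem hk]
    have hb := (hI q).1 k hk
    revert hb
    rcases (I.circ q).gates[k] with ⟨u, v⟩ | ⟨u, v⟩ | u <;> intro hb
    · exact ⟨refOk_ref (by have := hb.1; omega), refOk_ref (by have := hb.2; omega)⟩
    · exact ⟨refOk_ref (by have := hb.1; omega), refOk_ref (by have := hb.2; omega)⟩
    · exact refOk_ref (by have : u < I.n + k := hb; omega)

theorem toG_wf {f : Nd → ℕ} {N : ℕ} (hN : 2 ≤ N) {p : PGate Nd} (hp : p.All fun a => f a < N) :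
    (toG f p).WF N := by
  cases p with
  | const b => cases b <;> simp [toG, Gate.WF]
  | not a => exact hp
  | and a b => exact hp
  | or a b => exact hp
  | lo a => exact ⟨by omega, hp⟩
  | hi a => exact ⟨by omega, hp⟩

theorem mem_red_iff {t1 t2 : ℚ} {I : EoL} {g : ℕ × Gate} (hg : g ∈ (red t1 t2 I).gates) :
    g = (0, .const t1) ∨ g = (1, .const t2) ∨ ∃ z, Dom I z ∧ g = entry I z := by
  change g ∈ _ ++ (_ ++ (_ ++ (_ ++ _))) at hg
  simp only [List.mem_append] at hg
  rcases hg with hg | hg | hg | hg | hg
  · simp only [List.mem_cons, List.not_mem_nil, or_false] at hg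
    rcases hg with hg | hg
    · exact Or.inl hg
    · exact Or.inr (Or.inl hg)
  · obtain ⟨z, hz, rfl⟩ := List.mem_map.1 hg
    obtain ⟨j, -, rfl⟩ := List.mem_map.1 hz
    exact Or.inr (Or.inr ⟨.geo (geoEquiv.symm j).1, (geoEquiv.symm j).2, rfl⟩)
  · obtain ⟨i, hi, hg⟩ := List.mem_flatMap.1 hg
    obtain ⟨z, hz, rfl⟩ := List.mem_map.1 hg
    obtain ⟨j, -, rfl⟩ := List.mem_map.1 hz
    exact Or.inr (Or.inr ⟨.fld i (fldEquiv.symm j), Nat.le_of_lt_succ (List.mem_range.1 hi), rfl⟩)
  · obtain ⟨z, hz, rfl⟩ := List.mem_map.1 hg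
    obtain ⟨k, hk, rfl⟩ := List.mem_map.1 hz
    exact Or.inr (Or.inr ⟨.cg false k, List.mem_range.1 hk, rfl⟩)
  · obtain ⟨z, hz, rfl⟩ := List.mem_map.1 hg
    obtain ⟨k, hk, rfl⟩ := List.mem_map.1 hz
    exact Or.inr (Or.inr ⟨.cg true k, List.mem_range.1 hk, rfl⟩)

theorem two_le_total (I : EoL) : 2 ≤ total I := by unfold total; omega

theorem red_wf {t1 t2 : ℚ} (h1 : 0 ≤ t1 ∧ t1 ≤ 1) (h2 : 0 ≤ t2 ∧ t2 ≤ 1) {I : EoL}
    (hI : ∀ q, (I.circ q).WF I.n) : (red t1 t2 I).WF := by
  refine ⟨?_, ?_, ?_⟩
  · intro h
    have h3 := congrArg List.length h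
    rw [← List.length_map (f := Prod.fst), red_fst, List.length_range] at h3
    have := two_le_total I
    simp at h3
    omega
  · intro g hg
    have hN := two_le_total I
    rcases mem_red_iff hg with rfl | rfl | ⟨z, hz, rfl⟩
    · exact ⟨by show 0 < total I; omega, h1⟩
    · exact ⟨by show 1 < total I; omega, h2⟩
    · exact ⟨num_lt hz.refOk, toG_wf hN ((gate_all hI hz).imp fun a ha => num_lt ha)⟩
  · rw [red_fst]
    exact List.nodup_range

/-! ### Soundness -/

/-- The Kleene value of a real number. -/
noncomputable def status (ε v : ℝ) : Tri :=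
  if 1 - ε ≤ v then some true else if v ≤ ε then some false else none

theorem status_true {ε v : ℝ} (h : 1 - ε ≤ v) : status ε v = some true := by
  unfold status; rw [if_pos h]

theorem status_false {ε v : ℝ} (hε : ε < 1 / 2) (h : v ≤ ε) : status ε v = some false := by
  unfold status; rw [if_neg (by linarith), if_pos h]

theorem of_status_true {ε v : ℝ} (h : status ε v = some true) : 1 - ε ≤ v := by
  unfold status at h
  split_ifs at h with h1 h2
  · exact h1
  · simp at h

theorem of_status_false {ε v : ℝ} (h : status ε v = some false) : v ≤ ε := by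
  unfold status at h
  split_ifs at h with h1 h2
  · simp at h
  · exact h2

theorem of_status_none {ε v : ℝ} (h : status ε v = none) : ε < v ∧ v < 1 - ε := by
  unfold status at h
  split_ifs at h with h1 h2
  exact ⟨not_le.1 h2, not_le.1 h1⟩

theorem holds_of_sat {ε : ℝ} {t1 t2 : ℝ} (h0 : 0 < ε) (h1 : 3 * ε < t1)
    (h2 : t1 + 4 * ε < t2) (h3 : t2 + 3 * ε < 1) {x : ℕ → ℝ} (hx0 : |x 0 - t1| ≤ ε)
    (hx1 : |x 1 - t2| ≤ ε) {f : Nd → ℕ} {z : Nd} {p : PGate Nd}
    (hp : (toG f p).Sat ε x (f z)) : p.Holds (fun z => status ε (x (f z))) z := by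
  rw [abs_le] at hx0 hx1
  have hε : ε < 1 / 2 := by linarith
  cases p with
  | const b =>
    change |x (f z) - ((if b then 1 else 0 : ℚ) : ℝ)| ≤ ε at hp
    rw [abs_le] at hp
    show status ε (x (f z)) = some b
    cases b
    · refine status_false hε ?_
      simp at hp
      linarith
    · refine status_true ?_
      simp at hp
      linarith
  | not a =>
    intro v hv
    cases v
    · exact status_true (hp.1 (of_status_false hv))
    · exact status_false hε (hp.2 (of_status_true hv))
  | and a b =>
    refine ⟨fun ha hb => ?_, fun ha => ?_, fun hb => ?_⟩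
    · exact status_true (hp.1 ⟨of_status_true ha, of_status_true hb⟩)
    · exact status_false hε (hp.2 (Or.inl (of_status_false ha)))
    · exact status_false hε (hp.2 (Or.inr (of_status_false hb)))
  | or a b =>
    refine ⟨fun ha => ?_, fun hb => ?_, fun ha hb => ?_⟩
    · exact status_true (hp.1 (Or.inl (of_status_true ha)))
    · exact status_true (hp.1 (Or.inr (of_status_true hb)))
    · exact status_false hε (hp.2 ⟨of_status_false ha, of_status_false hb⟩)
  | lo a =>
    intro v hv
    cases v
    · have := of_status_false hv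
      exact status_false hε (hp.2 (by linarith))
    · have := of_status_true hv
      exact status_true (hp.1 (by linarith))
  | hi a =>
    intro v hv
    cases v
    · have := of_status_false hv
      exact status_false hε (hp.2 (by linarith))
    · have := of_status_true hv
      exact status_true (hp.1 (by linarith))

theorem twin_of_sat {ε : ℝ} {t1 t2 : ℝ} (h2 : t1 + 4 * ε < t2) {x : ℕ → ℝ}
    (hx0 : |x 0 - t1| ≤ ε) (hx1 : |x 1 - t2| ≤ ε) {f : Nd → ℕ} {z z' a : Nd}
    (hz : (toG f (.lo a)).Sat ε x (f z)) (hz' : (toG f (.hi a)).Sat ε x (f z')) :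
    status ε (x (f z)) ≠ none ∨ status ε (x (f z')) ≠ none := by
  rw [abs_le] at hx0 hx1
  by_contra hcon
  push Not at hcon
  obtain ⟨c1, c2⟩ := of_status_none hcon.1
  obtain ⟨c3, c4⟩ := of_status_none hcon.2
  have e1 : x 0 ≥ x (f a) - ε := by
    by_contra h
    have := hz.1 (by linarith)
    linarith
  have e2 : x 1 ≤ x (f a) + ε := by
    by_contra h
    have := hz'.2 (by linarith)
    linarith
  linarith

/-- An assignment that satisfies all gates gives a model. -/
theorem model_of_sat {ε : ℝ} {t1 t2 : ℚ} (h0 : 0 < ε) (h1 : 3 * ε < t1)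
    (h2 : (t1 : ℝ) + 4 * ε < t2) (h3 : (t2 : ℝ) + 3 * ε < 1) {x : ℕ → ℝ} {I : EoL}
    (hx : ∀ g ∈ (red t1 t2 I).gates, g.2.Sat ε x g.1) :
    Model I (fun z => status ε (x (num I z))) := by
  have hx0 : |x 0 - t1| ≤ ε := hx (0, .const t1) (by
    show _ ∈ _ ++ _
    simp)
  have hx1 : |x 1 - t2| ≤ ε := hx (1, .const t2) (by
    show _ ∈ _ ++ _
    simp)
  refine ⟨fun z hz => ?_, fun z z' a hz hz' e e' => ?_⟩
  · exact holds_of_sat h0 h1 h2 h3 hx0 hx1 (hx _ (mem_red hz))
  · have a1 := hx _ (mem_red hz)
    have a2 := hx _ (mem_red hz')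
    simp only [entry] at a1 a2
    rw [e] at a1
    rw [e'] at a2
    exact twin_of_sat h2 hx0 hx1 a1 a2

end Vale.Agent.P330.LS
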