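import Vale.Agent.P330.LS.Content

/-!
The statuses of the contents of a model are digital where they matter, and agree at the corners of
the ring unless a solution is stored.
-/

namespace Vale.Agent.P330.LS

variable {I : EoL} {st : Nd → Tri}

theorem EoL.Valid.circ (hI : I.Valid) (q : Bool) : (I.circ q).WF I.n := by
  cases q
  · exact hI.2.2.1
  · exact hI.2.1

/-- Block `q` stores the string `v`. -/
def Dg (I : EoL) (st : Nd → Tri) (q : Bool) (v : List Bool) : Prop :=
  v.length = I.n ∧ ∀ i < I.n, Cd st i q (v.getD i false)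

/-- Some block stores a solution. -/
def Sol (I : EoL) (st : Nd → Tri) : Prop := ∃ q v, Dg I st q v ∧ I.IsSol v

theorem exists_Dg {q : Bool} (h : ∀ i < I.n, ∃ v, Cd st i q v) : ∃ v, Dg I st q v := by
  choose! f hf using h
  refine ⟨(List.range I.n).map f, by simp, fun i hi => ?_⟩
  have : ((List.range I.n).map f).getD i false = f i := by
    rw [List.getD_eq_getElem _ _ (by simpa using hi)]; simp
  rw [this]
  exact hf i hi

theorem list_eq_iff {v p : List Bool} {n : ℕ} (hv : v.length = n) (hp : p.length = n) :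
    v = p ↔ ∀ i < n, v.getD i false = p.getD i false := by
  constructor
  · rintro rfl i _; rfl
  · intro h
    refine List.ext_getElem (by rw [hv, hp]) fun i h1 h2 => ?_
    have := h i (by omega)
    rwa [List.getD_eq_getElem _ _ h1, List.getD_eq_getElem _ _ h2] at this

theorem zeros_length (n : ℕ) : (zeros n).length = n := by simp [zeros]

theorem zeros_getD (n i : ℕ) : (zeros n).getD i false = false := by
  by_cases h : i < n
  · simp [zeros, List.getD_eq_getElem?_getD, h]
  · simp [zeros, List.getD_eq_getElem?_getD, h]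

theorem Model.dg_of_Dg (h : Model I st) {q : Bool} {v : List Bool} (hv : Dg I st q v) :
    st (.fld 0 (.dg q)) = some true := h.dg_true fun i hi => (hv.2 i hi).2.2

theorem Dg.r {q : Bool} {v : List Bool} (hv : Dg I st q v) {i : ℕ} (hi : i < I.n) :
    st (.fld i (.r q)) = some (v.getD i false) := (hv.2 i hi).2.1

theorem Model.zr_of_Dg (h : Model I st) {q : Bool} {v : List Bool} (hv : Dg I st q v) :
    st (.fld 0 (.zr q)) = some (decide (v = zeros I.n)) := by
  by_cases hz : v = zeros I.n
  · rw [decide_eq_true hz]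
    refine h.zr_true fun i hi => ?_
    rw [hv.r hi, hz, zeros_getD]
  · rw [decide_eq_false hz]
    rw [list_eq_iff hv.1 (zeros_length _)] at hz
    push Not at hz
    obtain ⟨i, hi, hne⟩ := hz
    rw [zeros_getD] at hne
    exact h.zr_false ⟨i, hi, by rw [hv.r hi, Bool.eq_true_of_not_eq_false hne]⟩

theorem Model.cx_of_Dg (h : Model I st) {q : Bool} {v p : List Bool} (hv : Dg I st q v)
    (hp : p.length = I.n) (hx : ∀ i < I.n, st (xt I i q) = some (p.getD i false)) :
    st (.fld 0 (.cx q)) = some (decide (v = p)) := by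
  by_cases hz : v = p
  · rw [decide_eq_true hz]
    refine h.cx_true fun i hi => h.ex_true hi (hv.r hi) ?_
    rw [hx i hi, hz]
  · rw [decide_eq_false hz]
    rw [list_eq_iff hv.1 hp] at hz
    push Not at hz
    obtain ⟨i, hi, hne⟩ := hz
    refine h.cx_false ⟨i, hi, h.ex_false hi ?_ (hx i hi)⟩
    rw [hv.r hi]
    congr 1
    revert hne
    cases v.getD i false <;> cases p.getD i false <;> simp

theorem Model.ce_of_Dg (h : Model I st) {q : Bool} {v p : List Bool} (hv : Dg I st q v)
    (hp : Dg I st (!q) p) : st (.fld 0 .ce) = some (decide (v = p)) := by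
  by_cases hz : v = p
  · rw [decide_eq_true hz]
    refine h.ce_true fun i hi => h.fe_true hi (hv.r hi) ?_
    rw [hp.r hi, hz]
  · rw [decide_eq_false hz]
    rw [list_eq_iff hv.1 hp.1] at hz
    push Not at hz
    obtain ⟨i, hi, hne⟩ := hz
    refine h.ce_false ⟨i, hi, h.fe_false hi (hv.r hi) ?_⟩
    rw [hp.r hi]
    congr 1
    revert hne
    cases v.getD i false <;> cases p.getD i false <;> simp

theorem Model.xt_of_Dg (h : Model I st) (hI : I.Valid) {q : Bool} {v : List Bool}
    (hv : Dg I st (!q) v) {i : ℕ} (hi : i < I.n) :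
    st (xt I i q) = some (((I.circ q).eval v).getD i false) :=
  h.xt_val (hI.circ q) hv.1 (fun _ hi => hv.r hi) hi

theorem Model.latched_dich (h : Model I st) {q : Bool} (hn : st (Nd.g0 .nrst) = some true)
    (hl : Lat st q true) : (∃ v, Dg I st q v) ∨ st (.fld 0 (.dg q)) = some false := by
  by_cases hc : ∃ i < I.n, st (.fld i (.nt q)) = some false
  · exact Or.inr (h.dg_false hc)
  · push Not at hc
    exact Or.inl (exists_Dg fun i hi => (h.latched hi hn hl).resolve_right (hc i hi))

/-! ### Status nodes -/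

theorem Model.ab_false (h : Model I st) {q : Bool} (hd : st (.fld 0 (.dg q)) = some false) :
    st (Nd.g0 .ab) = some false := by
  cases q
  · exact (h.tag .ab).2.1 hd
  · exact (h.tag .ab).2.2 hd

theorem Model.ab_true (h : Model I st) {q : Bool} (hd : st (.fld 0 (.dg q)) = some true)
    (hd' : st (.fld 0 (.dg (!q))) = some true) : st (Nd.g0 .ab) = some true := by
  cases q
  · exact (h.tag .ab).1 hd hd'
  · exact (h.tag .ab).1 hd' hd

theorem Model.xx_false (h : Model I st) {q : Bool} (hd : st (.fld 0 (.cx q)) = some false) :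
    st (Nd.g0 .xx) = some false := by
  cases q
  · exact (h.tag .xx).2.1 hd
  · exact (h.tag .xx).2.2 hd

theorem Model.xx_true (h : Model I st) {q : Bool} (hd : st (.fld 0 (.cx q)) = some true)
    (hd' : st (.fld 0 (.cx (!q))) = some true) : st (Nd.g0 .xx) = some true := by
  cases q
  · exact (h.tag .xx).1 hd hd'
  · exact (h.tag .xx).1 hd' hd

theorem Model.v2_false1 (h : Model I st) {q : Bool} (hd : st (.fld 0 (.dg q)) = some false) :
    st (Nd.g0 .v2) = some false := (h.tag .v2).2.1 (h.ab_false hd)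

theorem Model.v2_false2 (h : Model I st) {q : Bool} (hd : st (.fld 0 (.cx q)) = some false) :
    st (Nd.g0 .v2) = some false := (h.tag .v2).2.2 (h.xx_false hd)

theorem Model.v4_false1 (h : Model I st) {q : Bool} (hd : st (.fld 0 (.dg q)) = some false) :
    st (Nd.g0 .v4) = some false := (h.tag .v4).2.1 (h.ab_false hd)

theorem Model.v4_false2 (h : Model I st) (hd : st (.fld 0 .ce) = some false) :
    st (Nd.g0 .v4) = some false := (h.tag .v4).2.2 ((h.tag .ee).2.1 hd)

/-- The status of the top sector if one block stores `v` and the other one its image. -/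
theorem Model.v2_of_Dg (h : Model I st) (hI : I.Valid) {q : Bool} {v : List Bool}
    (hv : Dg I st q v) (hw : Dg I st (!q) ((I.circ (!q)).eval v)) :
    st (Nd.g0 .v2) = some (decide (v = (I.circ q).eval ((I.circ (!q)).eval v))) := by
  have a1 := h.dg_of_Dg hv
  have a2 := h.dg_of_Dg hw
  have a3 : st (.fld 0 (.cx (!q))) = some true := by
    have := h.cx_of_Dg (q := !q) hw (p := (I.circ (!q)).eval v) hw.1 fun i hi =>
      h.xt_of_Dg hI (q := !q) (by simpa using hv) hi
    simpa using this
  have a4 : st (.fld 0 (.cx q)) =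
      some (decide (v = (I.circ q).eval ((I.circ (!q)).eval v))) :=
    h.cx_of_Dg hv (BCirc.eval_length (hI.circ q) _) fun i hi => h.xt_of_Dg hI hw hi
  by_cases hz : v = (I.circ q).eval ((I.circ (!q)).eval v)
  · rw [decide_eq_true hz] at a4 ⊢
    exact (h.tag .v2).1 (h.ab_true a1 a2) (h.xx_true a4 a3)
  · rw [decide_eq_false hz] at a4 ⊢
    exact h.v2_false2 a4

/-- The status of the bottom sector if both blocks store `v`. -/
theorem Model.v4_of_Dg (h : Model I st) {v : List Bool}
    (hv : Dg I st false v) (hw : Dg I st true v) :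
    st (Nd.g0 .v4) = some (!(decide (v = zeros I.n))) := by
  have a1 := h.ab_true (h.dg_of_Dg hv) (h.dg_of_Dg hw)
  have a3 : st (.fld 0 .ce) = some true := by simpa using h.ce_of_Dg hv hw
  have a4 : st (Nd.g0 .nzb) = some (!(decide (v = zeros I.n))) := h.tag .nzb _ (h.zr_of_Dg hw)
  rcases e : (!(decide (v = zeros I.n))) with _ | _
  · rw [e] at a4
    exact (h.tag .v4).2.2 ((h.tag .ee).2.2 a4)
  · rw [e] at a4
    exact (h.tag .v4).1 a1 ((h.tag .ee).1 a3 a4)

theorem Model.vb_of_Dg (h : Model I st) {v : List Bool} (hw : Dg I st true v) :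
    st (Nd.g0 .vb) = some (!(decide (v = zeros I.n))) := by
  have a4 : st (Nd.g0 .nzb) = some (!(decide (v = zeros I.n))) := h.tag .nzb _ (h.zr_of_Dg hw)
  rcases e : (!(decide (v = zeros I.n))) with _ | _
  · rw [e] at a4
    exact (h.tag .vb).2.2 a4
  · rw [e] at a4
    exact (h.tag .vb).1 (h.dg_of_Dg hw) a4

theorem Model.va_of (h : Model I st) {b : Bool} (hd : st (.fld 0 (.dg false)) = some b) :
    st (Nd.g0 .va) = some b := by
  cases b
  · exact (h.tag .va).2.1 hd
  · exact (h.tag .va).1 hd hd

theorem Model.ha_of_Dg (h : Model I st) {v : List Bool} (hv : Dg I st false v) :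
    st (Nd.g0 .ha) = some (decide (v = zeros I.n)) := by
  have a := h.zr_of_Dg hv
  rcases e : (decide (v = zeros I.n)) with _ | _
  · rw [e] at a
    exact (h.tag .ha).2.2 a
  · rw [e] at a
    exact (h.tag .ha).1 (h.dg_of_Dg hv) a

/-- The top status is digital if one block is latched. -/
theorem Model.v2_dig (h : Model I st) (hI : I.Valid) {q : Bool}
    (hn : st (Nd.g0 .nrst) = some true) (hl : Lat st q true) (hw : st Nd.w2 = some true) :
    ∃ b, st (Nd.g0 .v2) = some b := by
  rcases h.latched_dich hn hl with ⟨v, hv⟩ | hd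
  · by_cases h1 : ∃ i < I.n, st (.fld i (.nt (!q))) = some false
    · exact ⟨_, h.v2_false1 (h.dg_false h1)⟩
    by_cases h2 : ∃ i < I.n, st (.fld i (.ex (!q))) = some false
    · exact ⟨_, h.v2_false2 (h.cx_false h2)⟩
    push Not at h1 h2
    have hx : ∀ i < I.n, st (xt I i (!q)) = some (((I.circ (!q)).eval v).getD i false) :=
      fun i hi => h.xt_of_Dg hI (q := !q) (by simpa using hv) hi
    have hg : Dg I st (!q) ((I.circ (!q)).eval v) := by
      refine ⟨BCirc.eval_length (hI.circ _) _, fun i hi => ?_⟩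
      rcases h.mixed hi hn (h.inner_true hi hw (hx i hi)) with h3 | h3 | h3
      · exact h3
      · exact absurd h3 (h1 i hi)
      · exact absurd (h.ex_false hi h3 (hx i hi)) (h2 i hi)
    exact ⟨_, h.v2_of_Dg hI hv hg⟩
  · exact ⟨_, h.v2_false1 hd⟩

/-- The bottom status is digital if one block is latched. -/
theorem Model.v4_dig (h : Model I st) {q : Bool}
    (hn : st (Nd.g0 .nrst) = some true) (hl : Lat st q true) (hw : st Nd.w2 = some false) :
    ∃ b, st (Nd.g0 .v4) = some b := by
  rcases h.latched_dich hn hl with ⟨v, hv⟩ | hd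
  · by_cases h1 : ∃ i < I.n, st (.fld i (.nt (!q))) = some false
    · exact ⟨_, h.v4_false1 (h.dg_false h1)⟩
    by_cases h2 : ∃ i < I.n, st (.fld i .fe) = some false
    · exact ⟨_, h.v4_false2 (h.ce_false h2)⟩
    push Not at h1 h2
    have hg : Dg I st (!q) v := by
      refine ⟨hv.1, fun i hi => ?_⟩
      have hi5 : st (.fld i (.i5 (!q))) = some (v.getD i false) :=
        h.inner_false hi hw (by simpa using hv.r hi)
      rcases h.mixed hi hn hi5 with h3 | h3 | h3
      · exact h3
      · exact absurd h3 (h1 i hi)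
      · exact absurd (h.fe_false hi (hv.r hi) h3) (h2 i hi)
    cases q
    · exact ⟨_, h.v4_of_Dg hv hg⟩
    · exact ⟨_, h.v4_of_Dg hg hv⟩
  · exact ⟨_, h.v4_false1 hd⟩

/-- The right status. -/
theorem Model.va_dig (h : Model I st) (hn : st (Nd.g0 .nrst) = some true)
    (hl : Lat st false true) : ∃ b, st (Nd.g0 .va) = some b := by
  rcases h.latched_dich hn hl with ⟨v, hv⟩ | hd
  · exact ⟨_, h.va_of (h.dg_of_Dg hv)⟩
  · exact ⟨_, h.va_of hd⟩

/-- The left status. -/
theorem Model.vb_dig (h : Model I st) (hn : st (Nd.g0 .nrst) = some true)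
    (hl : Lat st true true) : ∃ b, st (Nd.g0 .vb) = some b := by
  rcases h.latched_dich hn hl with ⟨v, hv⟩ | hd
  · exact ⟨_, h.vb_of_Dg hv⟩
  · exact ⟨_, (h.tag .vb).2.1 hd⟩

/-- The home status. -/
theorem Model.ha_dig (h : Model I st) (hl : Lat st false true) :
    st (Nd.g0 .ha) = some false ∨ (st (Nd.g0 .ha) = some true ∧ st (Nd.g0 .va) = some true) := by
  by_cases h1 : ∃ i < I.n, st (.fld i (.nt false)) = some false
  · exact Or.inl ((h.tag .ha).2.1 (h.dg_false h1))
  by_cases h2 : ∃ i < I.n, st (.fld i (.r false)) = some true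
  · exact Or.inl ((h.tag .ha).2.2 (h.zr_false h2))
  push Not at h1 h2
  have hc : ∀ i < I.n, Cd st i false false := fun i hi => by
    rcases h.zeroish hi hl with h3 | h3 | h3
    · exact h3
    · exact absurd h3 (h1 i hi)
    · exact absurd h3 (h2 i hi)
  have hd := h.dg_true fun i hi => (hc i hi).2.2
  exact Or.inr ⟨(h.tag .ha).1 hd (h.zr_true fun i hi => (hc i hi).2.1), h.va_of hd⟩

/-- The statuses after a reset. -/
theorem Model.centre (h : Model I st) (hn : st (Nd.g0 .nrst) = some false) :
    st (Nd.g0 .ha) = some true ∧ st (Nd.g0 .va) = some true := by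
  have hc : ∀ i < I.n, Cd st i false false := fun i hi => h.reset hi hn
  have hd := h.dg_true fun i hi => (hc i hi).2.2
  exact ⟨(h.tag .ha).1 hd (h.zr_true fun i hi => (hc i hi).2.1), h.va_of hd⟩

/-! ### Corners -/

/-- Top right corner. -/
theorem Model.cornerTR (h : Model I st) (hI : I.Valid) (hn : st (Nd.g0 .nrst) = some true)
    (h1 : st Nd.u1 = some true) (h2 : st Nd.u2 = some true) (hw : st Nd.w2 = some true) :
    (∃ b, st (Nd.g0 .va) = some b ∧ st (Nd.g0 .v2) = some b) ∨ Sol I st := by
  have la := h.lat_false h1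
  have lb : Lat st true false := h.lat_true h2
  rcases h.latched_dich hn la with ⟨v, hv⟩ | hd
  · have hg : Dg I st true ((I.circ true).eval v) := by
      refine ⟨BCirc.eval_length (hI.circ _) _, fun i hi => ?_⟩
      exact h.forced hi hn lb (h.inner_true hi hw (h.xt_of_Dg hI (q := true) hv hi))
    have e := h.v2_of_Dg hI hv hg
    by_cases hz : v = (I.circ false).eval ((I.circ true).eval v)
    · left
      refine ⟨true, h.va_of (h.dg_of_Dg hv), ?_⟩
      rw [e]
      congr 1
      exact decide_eq_true hz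
    · right
      refine ⟨false, v, hv, hv.1, ?_, Or.inl fun e => hz e.symm⟩
      rintro rfl
      exact hz hI.2.2.2.2.2.symm
  · exact Or.inl ⟨false, h.va_of hd, h.v2_false1 hd⟩

/-- Top left corner. -/
theorem Model.cornerTL (h : Model I st) (hI : I.Valid) (hn : st (Nd.g0 .nrst) = some true)
    (h1 : st Nd.u1 = some false) (h2 : st Nd.u2 = some false) (hw : st Nd.w2 = some true) :
    (∃ b, st (Nd.g0 .v2) = some b ∧ st (Nd.g0 .vb) = some b) ∨ Sol I st := by
  have la := h.lat_false h1
  have lb : Lat st true true := h.lat_true h2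
  rcases h.latched_dich hn lb with ⟨v, hv⟩ | hd
  · have hg : Dg I st false ((I.circ false).eval v) := by
      refine ⟨BCirc.eval_length (hI.circ _) _, fun i hi => ?_⟩
      exact h.forced hi hn la (h.inner_true hi hw (h.xt_of_Dg hI (q := false) hv hi))
    have e := h.v2_of_Dg hI (q := true) hv hg
    have e' := h.vb_of_Dg hv
    have hz' : v = zeros I.n → ¬ v = (I.circ true).eval ((I.circ false).eval v) := by
      rintro rfl hcon
      have h3 : (I.circ false).eval (zeros I.n) = zeros I.n := hI.2.2.2.1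
      rw [h3] at hcon
      exact hI.2.2.2.2.1 hcon.symm
    by_cases hz : v = (I.circ true).eval ((I.circ false).eval v)
    · left
      refine ⟨true, ?_, ?_⟩
      · rw [e]
        congr 1
        exact decide_eq_true hz
      · rw [e', decide_eq_false fun hc => hz' hc hz]
        rfl
    · by_cases hv0 : v = zeros I.n
      · left
        refine ⟨false, ?_, ?_⟩
        · rw [e]
          congr 1
          exact decide_eq_false hz
        · rw [e', decide_eq_true hv0]
          rfl
      · exact Or.inr ⟨true, v, hv, hv.1, hv0, Or.inr fun e => hz e.symm⟩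
  · exact Or.inl ⟨false, h.v2_false1 hd, (h.tag .vb).2.1 hd⟩

/-- Bottom left corner. -/
theorem Model.cornerBL (h : Model I st) (hn : st (Nd.g0 .nrst) = some true)
    (h1 : st Nd.u1 = some false) (h2 : st Nd.u2 = some false) (hw : st Nd.w2 = some false) :
    ∃ b, st (Nd.g0 .vb) = some b ∧ st (Nd.g0 .v4) = some b := by
  have la := h.lat_false h1
  have lb : Lat st true true := h.lat_true h2
  rcases h.latched_dich hn lb with ⟨v, hv⟩ | hd
  · have hg : Dg I st false v := ⟨hv.1, fun i hi =>
      h.forced hi hn la (h.inner_false hi hw (hv.r hi))⟩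
    exact ⟨_, h.vb_of_Dg hv, h.v4_of_Dg hg hv⟩
  · exact ⟨false, (h.tag .vb).2.1 hd, h.v4_false1 hd⟩

/-- Bottom right corner. -/
theorem Model.cornerBR (h : Model I st) (hn : st (Nd.g0 .nrst) = some true)
    (h1 : st Nd.u1 = some true) (h2 : st Nd.u2 = some true) (hw : st Nd.w2 = some false) :
    ∃ a b, st (Nd.g0 .va) = some a ∧ st (Nd.g0 .ha) = some b ∧
      st (Nd.g0 .v4) = some (a && !b) := by
  have la := h.lat_false h1
  have lb : Lat st true false := h.lat_true h2
  rcases h.latched_dich hn la with ⟨v, hv⟩ | hd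
  · have hg : Dg I st true v := ⟨hv.1, fun i hi =>
      h.forced hi hn lb (h.inner_false hi hw (hv.r hi))⟩
    exact ⟨_, _, h.va_of (h.dg_of_Dg hv), h.ha_of_Dg hv, by rw [h.v4_of_Dg hv hg]; simp⟩
  · exact ⟨false, false, h.va_of hd, (h.tag .ha).2.1 hd, h.v4_false1 hd⟩

/-! ### The reset signal -/

theorem Model.nrst_true (h : Model I st) (hc : st Nd.u1 = some false ∨ st Nd.u2 = some true ∨
    st Nd.w1 = some false ∨ st Nd.w2 = some true) : st (Nd.g0 .nrst) = some true := by
  have key : st (Nd.g0 .rst) = some false := by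
    rcases hc with hc | hc | hc | hc
    · exact (h.tag .rst).2.1 ((h.tag .r1).2.1 hc)
    · exact (h.tag .rst).2.1 ((h.tag .r1).2.2 (h.nu2 hc))
    · exact (h.tag .rst).2.2 ((h.tag .r2).2.1 hc)
    · exact (h.tag .rst).2.2 ((h.tag .r2).2.2 (h.nw2 hc))
  exact h.tag .nrst _ key

theorem Model.nrst_false (h : Model I st) (h1 : st Nd.u1 = some true) (h2 : st Nd.u2 = some false)
    (h3 : st Nd.w1 = some true) (h4 : st Nd.w2 = some false) :
    st (Nd.g0 .nrst) = some false :=
  h.tag .nrst _ ((h.tag .rst).1 ((h.tag .r1).1 h1 (h.nu2 h2)) ((h.tag .r2).1 h3 (h.nw2 h4)))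

end Vale.Agent.P330.LS
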